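import Vale.Agent.P302.H877.FamGap

/-!
# The outer family: every large value of `OPT`
-/

namespace Vale.Agent.P302

/-- `m` copies of a `(x, x'; y)` problem of deficiency `D = V - T` give bin packing instances with
`OPT - LP ≥ 1 + (m D - 1) / (4 m + 1)` -/
theorem fam_gap {T : ℕ} {V : ℚ} (hU : UDef T V) {m : ℕ} (hm : 0 < m) :
    ∃ K : ℕ, ∀ k : ℕ, K ≤ k → ∃ I : List ℚ, IsInstance I ∧ OPT I = k ∧
      1 + ((m : ℝ) * ((V : ℝ) - T) - 1) / (4 * m + 1) ≤ (OPT I : ℝ) - LP I := by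
  obtain ⟨X, Y, qU, W, hqU, hU1, hU2, hU3⟩ := hU
  obtain ⟨L, zs, N, v, hL, hzs, hN, ⟨z, hz1, hz2⟩, he⟩ := Fam.node hm hqU hU1 hU2
  have hI : IsInstance (inst L zs) := isInstance_inst hL hzs
  have hopt := opt_ge hI hN
  obtain ⟨j, hj⟩ : ∃ j, OPT (inst L zs) = j + 1 := ⟨OPT (inst L zs) - 1, by omega⟩
  have hp1 : Packable (inst L zs) (j + 1) := by
    rw [← hj]
    exact Nat.sInf_mem (s := {k | Packable (inst L zs) k}) ⟨_, packable_length hI⟩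
  have hp2 : ¬ Packable (inst L zs) j := by
    intro h
    have : OPT (inst L zs) ≤ j := Nat.sInf_le h
    omega
  have hNj : N ≤ j := by omega
  refine ⟨j + 1, fun k hk => ?_⟩
  obtain ⟨J, hJ1, hJ2, hJ3⟩ := family hI hp1 hp2 ⟨z, hz1, rfl⟩ (k - (j + 1))
  have hk' : j + (k - (j + 1)) + 1 = k := by omega
  rw [hk'] at hJ2
  refine ⟨J, hJ1, hJ2, ?_⟩
  rw [← hz2] at hJ3
  have hk2 : ((k - (j + 1) : ℕ) : ℝ) = (k : ℝ) - (j + 1) := by
    rw [Nat.cast_sub hk]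
    push_cast
    ring
  rw [hk2] at hJ3
  rw [hJ2]
  have hq0 : (0 : ℝ) < (qU : ℝ) := by exact_mod_cast hqU
  have hNj' : (N : ℝ) ≤ j := by exact_mod_cast hNj
  have e3 : (W.card : ℝ) = qU * V := by exact_mod_cast congrArg (fun x : ℚ => (x : ℝ)) hU3
  have he' : (v : ℝ) + m * W.card = qU * (m * T + 1 + (4 * m + 1) * N) := by
    exact_mod_cast congrArg (fun x : ℕ => (x : ℝ)) he
  rw [e3] at he'
  have hm0 : (0 : ℝ) ≤ (m : ℝ) := by positivity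
  have hv : (v : ℝ) / ((4 * m + 1) * qU : ℕ) =
      N - ((m : ℝ) * ((V : ℝ) - T) - 1) / (4 * m + 1) := by
    push_cast
    rw [div_eq_iff (by positivity)]
    have h4 : (4 * (m : ℝ) + 1) ≠ 0 := by positivity
    have : (N - ((m : ℝ) * ((V : ℝ) - T) - 1) / (4 * m + 1)) * ((4 * m + 1) * qU) =
        (N * (4 * m + 1) - ((m : ℝ) * ((V : ℝ) - T) - 1)) * qU := by
      field_simp
    rw [this]
    linear_combination he'
  rw [hv] at hJ3
  linarith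

/-- `OPT - LP` comes arbitrarily close to `3/2` if the deficiencies of the `(x, x'; y)` problem come
arbitrarily close to `2` -/
theorem fam_limit (hU : ∀ ε : ℚ, 0 < ε → ∃ (T : ℕ) (V : ℚ), UDef T V ∧ V - T > 2 - ε) (ε : ℝ)
    (hε : 0 < ε) : ∃ K : ℕ, ∀ k : ℕ, K ≤ k → ∃ I : List ℚ, IsInstance I ∧ OPT I = k ∧
      3 / 2 - ε < (OPT I : ℝ) - LP I := by
  obtain ⟨δ, hδ0, hδ⟩ := exists_rat_btwn hε
  have hδ0' : 0 < δ := by exact_mod_cast hδ0
  obtain ⟨T, V, h1, h2⟩ := hU δ hδ0'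
  obtain ⟨m, hm⟩ := exists_nat_gt (1 / ε)
  have hm0 : (0 : ℝ) < m := lt_trans (by positivity) hm
  have hm1 : 0 < m := by exact_mod_cast hm0
  obtain ⟨K, hK⟩ := fam_gap h1 hm1
  refine ⟨K, fun k hk => ?_⟩
  obtain ⟨I, hI1, hI2, hI3⟩ := hK k hk
  refine ⟨I, hI1, hI2, lt_of_lt_of_le ?_ hI3⟩
  have h2' : (2 : ℝ) - δ < (V : ℝ) - T := by exact_mod_cast h2
  have hmε : 1 < m * ε := by
    rw [div_lt_iff₀ hε] at hm
    exact hm
  have h3 : (3 / 2 - ε - 1) * (4 * (m : ℝ) + 1) < (m : ℝ) * ((V : ℝ) - T) - 1 := by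
    have : (m : ℝ) * (2 - ε) < (m : ℝ) * ((V : ℝ) - T) := by
      refine mul_lt_mul_of_pos_left ?_ hm0
      linarith
    nlinarith
  have h4 : 3 / 2 - ε - 1 < ((m : ℝ) * ((V : ℝ) - T) - 1) / (4 * m + 1) := by
    rw [lt_div_iff₀ (by positivity)]
    exact h3
  linarith

end Vale.Agent.P302
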