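import Vale.Agent.P302.H877.Upper

/-!
# The outer node (capacity 90): the gap of the instance
-/

namespace Vale.Agent.P302.Node

open Vale.Agent.P302 Vale.Agent.P302.Tags

/-- an LP solution from a multiset of patterns covering `q` copies of the instance -/
theorem sol_of_pats {ι : Type*} {L : ℕ} (hL : 0 < L) (size : ι → ℕ) (l : List ι) {q : ℕ}
    (hq : 0 < q) (P : Multiset (Multiset ι))
    (h1 : ∀ p ∈ P, (∀ i ∈ p, i ∈ l) ∧ (p.map size).sum ≤ L)
    (h2 : q • (l : Multiset ι) ≤ P.join) :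
    ∃ z, IsLPSolution (inst L (l.map size)) z ∧ (P.card : ℝ) / q = z.sum (fun _ w => w) := by
  have key := LP_cert hL (xs := l.map size) hq
    ((P.toList).map (fun p => ((p.map size).toList, 1))) ?_ ?_
  · obtain ⟨z, hz1, hz2⟩ := key
    refine ⟨z, hz1, ?_⟩
    rw [← hz2]
    congr 2
    rw [List.map_map]
    have : ((fun d : List ℕ × ℕ => d.2) ∘ fun p : Multiset ι => ((p.map size).toList, 1))
        = fun _ => 1 := rfl
    rw [this, List.map_const', List.sum_replicate, Multiset.length_toList]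
    simp
  · intro d hd
    obtain ⟨p, hp, rfl⟩ := List.mem_map.1 hd
    rw [Multiset.mem_toList] at hp
    obtain ⟨h3, h4⟩ := h1 p hp
    constructor
    · intro x hx
      simp only [Multiset.mem_toList, Multiset.mem_map] at hx
      obtain ⟨i, hi, rfl⟩ := hx
      exact List.mem_map_of_mem (h3 i hi)
    · simpa [Multiset.sum_toList] using h4
  · intro x _
    rw [List.map_map]
    have e1 : ((fun d : List ℕ × ℕ => d.2 * List.count x d.1) ∘
        fun p : Multiset ι => ((p.map size).toList, 1)) = fun p => (p.map size).count x := by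
      funext p
      simp only [Function.comp_apply, one_mul]
      rw [← Multiset.coe_count, Multiset.coe_toList]
    rw [e1]
    have e2 : (P.toList.map (fun p => (p.map size).count x)).sum
        = (P.join.map size).count x := by
      rw [← Multiset.sum_coe, ← Multiset.map_coe, Multiset.coe_toList]
      clear h1 h2
      induction P using Multiset.induction with
      | empty => simp
      | cons p P ih =>
        rw [Multiset.map_cons, Multiset.sum_cons, ih, Multiset.join_cons, Multiset.map_add,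
          Multiset.count_add]
    rw [e2]
    have h3 := Multiset.count_le_of_le x (Multiset.map_le_map (f := size) h2)
    rw [Multiset.map_nsmul, Multiset.count_nsmul, Multiset.map_coe, Multiset.coe_count] at h3
    rw [mul_comm]
    exact h3

theorem exU_total {a b : Fin 7} {B : ℤ} {W : Multiset (ℤ × ℤ × ℤ)}
    (hab : 2 * mac a + mac b = 90) (hW : ∀ t ∈ W, t.1 + t.2.1 + t.2.2 ≤ 0) :
    ∀ M ∈ exU a b W, tot B M ≤ 90 * B := by
  intro M hM
  obtain ⟨t, ht, rfl⟩ := Multiset.mem_map.1 hM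
  have h := hW t ht
  have e : tot B ({(a, t.1)} + {(a, t.2.1)} + {(b, t.2.2)}) =
      (2 * mac a + mac b) * B + (t.1 + t.2.1 + t.2.2) := by
    unfold tot
    simp only [Multiset.map_add, Multiset.map_singleton, Multiset.sum_add, Multiset.sum_singleton]
    ring
  rw [e, hab]
  linarith

theorem num_tag (a b : Fin 7) (X : Multiset ℤ) : num a (tag b X) = if a = b then X.card else 0 := by
  unfold num
  rw [fine_tag]
  split_ifs <;> simp

theorem num_exU (c a b : Fin 7) (W : Multiset (ℤ × ℤ × ℤ)) :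
    num c (exU a b W).join = (if c = a then 2 * W.card else 0) + if c = b then W.card else 0 := by
  rw [join_exU, num_add, num_tag, num_tag, Multiset.card_add, Multiset.card_map, Multiset.card_map,
    Multiset.card_map]
  split_ifs <;> ring

theorem num_nsmul (a : Fin 7) (q : ℕ) (M : Multiset (Fin 7 × ℤ)) :
    num a (q • M) = q * num a M := by
  unfold num fine
  rw [Multiset.filter_nsmul, Multiset.map_nsmul, Multiset.card_nsmul]

/-- the data of an instance: `E` is the fine part of the dummies, `B` the macro unit -/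
structure Data (X Y Z : Multiset ℤ) (c : Cnt) (Φ : ℕ) : Prop where
  bd : ∀ x ∈ X + Y + Z, -(Φ : ℤ) ≤ x ∧ x ≤ Φ
  h0 : Y.card ≤ c.n0
  h1 : X.card ≤ c.n1
  h2 : Y.card ≤ c.n2
  h3 : X.card ≤ c.n3
  h4 : Y.card ≤ c.n4
  h5 : X.card ≤ c.n5
  h6 : Z.card ≤ c.n6

/-- the fine part of the dummies -/
def EE (Φ : ℕ) : ℤ := 2 * (Φ : ℤ) + 1

/-- the macro unit -/
def BB (Φ : ℕ) : ℤ := 100 * ((Φ : ℤ) + 1)

/-- the capacity -/
def LL (Φ : ℕ) : ℕ := (90 * BB Φ).toNat

theorem LL_cast (Φ : ℕ) : (LL Φ : ℤ) = 90 * BB Φ := Int.toNat_of_nonneg (by unfold BB; positivity)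

theorem LL_pos (Φ : ℕ) : 0 < LL Φ := by
  have := LL_cast Φ
  unfold BB at this
  omega

/-- the list of items -/
noncomputable def lst (X Y Z : Multiset ℤ) (c : Cnt) (Φ : ℕ) : List (Fin 7 × ℤ) :=
  (items X Y Z c (EE Φ)).toList

section

variable {X Y Z : Multiset ℤ} {c : Cnt} {Φ : ℕ}

theorem lst_coe : (lst X Y Z c Φ : Multiset (Fin 7 × ℤ)) = items X Y Z c (EE Φ) :=
  Multiset.coe_toList _

theorem item_bd (h : Data X Y Z c Φ) : ∀ i ∈ items X Y Z c (EE Φ), -(Φ : ℤ) ≤ i.2 ∧ i.2 ≤ EE Φ := by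
  intro i hi
  have hE : EE Φ = 2 * (Φ : ℤ) + 1 := rfl
  rcases mem_items hi with h' | h' | h' | h'
  · have := h.bd i.2 (by simp [h']); omega
  · have := h.bd i.2 (by simp [h']); omega
  · have := h.bd i.2 (by simp [h']); omega
  · omega

theorem item_pos (h : Data X Y Z c Φ) : ∀ i ∈ items X Y Z c (EE Φ),
    0 < mac i.1 * BB Φ + i.2 ∧ mac i.1 * BB Φ + i.2 ≤ 90 * BB Φ := by
  intro i hi
  have h1 := item_bd h i hi
  have h2 := mac_bounds i.1
  have hE : EE Φ = 2 * (Φ : ℤ) + 1 := rfl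
  have hB : BB Φ = 100 * ((Φ : ℤ) + 1) := rfl
  have hΦ : (0 : ℤ) ≤ Φ := by positivity
  have hB0 : 0 < BB Φ := by rw [hB]; positivity
  have h3 : 9 * BB Φ ≤ mac i.1 * BB Φ := by nlinarith
  have h4 : mac i.1 * BB Φ ≤ 72 * BB Φ := by nlinarith
  constructor
  · linarith
  · linarith

theorem sum_iff (h : Data X Y Z c Φ) (M : Multiset (Fin 7 × ℤ))
    (hM : ∀ i ∈ M, i ∈ items X Y Z c (EE Φ)) :
    (M.map (size (BB Φ))).sum ≤ LL Φ ↔ tot (BB Φ) M ≤ 90 * BB Φ := by
  rw [← LL_cast, ← size_sum (BB Φ) M (fun i hi => (item_pos h i (hM i hi)).1.le)]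
  exact_mod_cast Iff.rfl

theorem sizes_ok (h : Data X Y Z c Φ) :
    ∀ x ∈ (lst X Y Z c Φ).map (size (BB Φ)), 0 < x ∧ x ≤ LL Φ := by
  intro x hx
  obtain ⟨i, hi, rfl⟩ := List.mem_map.1 hx
  have hi' : i ∈ items X Y Z c (EE Φ) := by rw [← lst_coe]; exact hi
  have h1 := item_pos h i hi'
  have h2 := LL_cast Φ
  unfold size
  omega

/-- the lower bound for the number of bins -/
theorem lower (h : Data X Y Z c Φ) {T TP N : ℕ} (hU : ∀ S, UPack X Y S → Multiset.card S ≤ T)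
    (hP : ∀ S, PPack Z S → Multiset.card S ≤ TP)
    (hN : 14 * N + 3 * T + TP < 7 * c.n0 + 4 * c.n1 + 13 * c.n2 + c.n3 + 9 * c.n4 + 3 * c.n5 +
      5 * c.n6) : ¬ Packable (inst (LL Φ) ((lst X Y Z c Φ).map (size (BB Φ)))) N := by
  intro hpack
  obtain ⟨f0, f1, f2, f3, f4, f5, f6⟩ := fine_items X Y Z c (EE Φ)
  obtain ⟨n0, n1, n2, n3, n4, n5, n6⟩ := num_items (E := EE Φ) h.h0 h.h1 h.h2 h.h3 h.h4 h.h5 h.h6
  obtain ⟨P, hPc, hPj, hPs⟩ := tpack_of_packable (LL_pos Φ) (size (BB Φ)) (lst X Y Z c Φ) hpack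
  rw [lst_coe] at hPj
  have hmem : ∀ M ∈ P, ∀ i ∈ M, i ∈ items X Y Z c (EE Φ) := by
    intro M hM i hi
    rw [← hPj]
    exact Multiset.mem_join.2 ⟨M, hM, hi⟩
  have hB : BB Φ = 100 * ((Φ : ℤ) + 1) := rfl
  have hB0 : 0 < BB Φ := by rw [hB]; positivity
  obtain ⟨S₁, S₂, S₃, S₄, g1, g2, g3, g4, hle⟩ := bins (B := BB Φ) (Φ := (Φ : ℤ)) (by positivity)
    (by rw [hB]; linarith [Int.natCast_nonneg Φ]) hB0 P
    (fun M hM => ⟨fun i hi => (item_bd h i (hmem M hM i hi)).1,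
      (sum_iff h M (hmem M hM)).1 (hPs M hM)⟩)
  rw [hPj] at g1 g2 g3 g4 hle
  have u1 := hU S₁ (g1.upack f1 f0)
  have u2 := hU S₂ (g2.upack f3 f2)
  have u3 := hU S₃ (g3.upack f5 f4)
  have u4 := hP S₄ (g4.ppack f6)
  unfold price at hle
  rw [n0, n1, n2, n3, n4, n5, n6, hPc] at hle
  omega

/-- the fractional solution -/
theorem upper (h : Data X Y Z c Φ) {q : ℕ} (hq : 0 < q) {WU WP : Multiset (ℤ × ℤ × ℤ)}
    (hU : UPack (q • X) (q • Y) WU) (hP : PPack (q • Z) WP) {w : Wts}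
    (h0 : q * c.n0 = WU.card + w.w11)
    (h1 : q * c.n1 = 2 * WU.card + (w.w6 + 2 * w.w8 + w.w11))
    (h2 : q * c.n2 = WU.card + w.w5)
    (h3 : q * c.n3 = 2 * WU.card + (w.w3 + w.w5))
    (h4 : q * c.n4 = WU.card + w.w2)
    (h5 : q * c.n5 = 2 * WU.card + (3 * w.w1 + w.w3 + 2 * w.w8 + w.w11))
    (h6 : q * c.n6 = 3 * WP.card + (w.w1 + w.w2 + 2 * w.w3 + 2 * w.w6)) :
    ∃ z, IsLPSolution (inst (LL Φ) ((lst X Y Z c Φ).map (size (BB Φ)))) z ∧
      ((3 * WU.card + WP.card + (w.w1 + w.w2 + w.w3 + w.w5 + w.w6 + w.w8 + w.w11) : ℕ) : ℝ) / q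
        = z.sum (fun _ w => w) := by
  obtain ⟨n0, n1, n2, n3, n4, n5, n6⟩ := num_items (E := EE Φ) h.h0 h.h1 h.h2 h.h3 h.h4 h.h5 h.h6
  have hused : (exU 1 0 WU).join + (exU 3 2 WU).join + (exU 5 4 WU).join + (exU 6 6 WP).join ≤
      q • items X Y Z c (EE Φ) := by
    have h1 := join_exU_le 1 0 hU
    have h2 := join_exU_le 3 2 hU
    have h3 := join_exU_le 5 4 hU
    have h4 := join_exP_le 6 hP
    refine (add_le_add (add_le_add (add_le_add h1 h2) h3) h4).trans ?_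
    rw [← nsmul_add, ← nsmul_add, ← nsmul_add]
    refine nsmul_le_nsmul_right ?_ q
    have e : tag (1 : Fin 7) X + tag 0 Y + (tag 3 X + tag 2 Y) + (tag 5 X + tag 4 Y) + tag 6 Z =
      tag 0 Y + tag 1 X + tag 2 Y + tag 3 X + tag 4 Y + tag 5 X + tag 6 Z := by abel
    rw [e]
    unfold items
    exact add_le_add (add_le_add (add_le_add (add_le_add (add_le_add (add_le_add
      (tag_le_blk _ _ _ _) (tag_le_blk _ _ _ _)) (tag_le_blk _ _ _ _)) (tag_le_blk _ _ _ _))
      (tag_le_blk _ _ _ _)) (tag_le_blk _ _ _ _)) (tag_le_blk _ _ _ _)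
  obtain ⟨R, hR⟩ := Multiset.le_iff_exists_add.1 hused
  have hcnt : ∀ a : Fin 7, q * num a (items X Y Z c (EE Φ)) = num a (exU 1 0 WU).join +
      num a (exU 3 2 WU).join + num a (exU 5 4 WU).join + num a (exU 6 6 WP).join + num a R := by
    intro a
    rw [← num_nsmul, hR]
    simp only [num_add]
  simp only [num_exU] at hcnt
  have hRk : R.map Prod.fst = (pats w).join := by
    obtain ⟨k0, k1, k2, k3, k4, k5, k6⟩ := count_pats w
    ext a
    rw [count_kinds]
    have ha := hcnt a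
    fin_cases a
    · simp at ha ⊢
      rw [k0]; rw [n0] at ha; omega
    · simp at ha ⊢
      rw [k1]; rw [n1] at ha; omega
    · simp at ha ⊢
      rw [k2]; rw [n2] at ha; omega
    · simp at ha ⊢
      rw [k3]; rw [n3] at ha; omega
    · simp at ha ⊢
      rw [k4]; rw [n4] at ha; omega
    · simp at ha ⊢
      rw [k5]; rw [n5] at ha; omega
    · simp at ha ⊢
      rw [k6]; rw [n6] at ha; omega
  obtain ⟨A, hA1, hA2⟩ := assemble Prod.fst (pats w) R hRk
  have hB : BB Φ = 100 * ((Φ : ℤ) + 1) := rfl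
  have hE : EE Φ = 2 * (Φ : ℤ) + 1 := rfl
  have hΦ : (0 : ℤ) ≤ Φ := by positivity
  set P : Multiset (Multiset (Fin 7 × ℤ)) :=
    exU 1 0 WU + exU 3 2 WU + exU 5 4 WU + exU 6 6 WP + A with hPdef
  have hjoin : P.join = q • items X Y Z c (EE Φ) := by
    rw [hPdef, Multiset.join_add, Multiset.join_add, Multiset.join_add, Multiset.join_add, hA1, hR]
  have hmem : ∀ M ∈ P, ∀ i ∈ M, i ∈ items X Y Z c (EE Φ) := by
    intro M hM i hi
    have : i ∈ P.join := Multiset.mem_join.2 ⟨M, hM, hi⟩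
    rw [hjoin] at this
    exact Multiset.mem_of_mem_nsmul this
  have hcard : P.card = 3 * WU.card + WP.card +
      (w.w1 + w.w2 + w.w3 + w.w5 + w.w6 + w.w8 + w.w11) := by
    have hA : A.card = (pats w).card := by rw [← hA2, Multiset.card_map]
    rw [hPdef]
    simp only [Multiset.card_add, hA, card_pats]
    unfold exU
    simp only [Multiset.card_map]
    omega
  have htot : ∀ M ∈ P, tot (BB Φ) M ≤ 90 * BB Φ := by
    intro M hM
    have hM' := hM
    rw [hPdef] at hM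
    simp only [Multiset.mem_add] at hM
    rcases hM with (((hM | hM) | hM) | hM) | hM
    · exact exU_total (by decide) hU.1 M hM
    · exact exU_total (by decide) hU.1 M hM
    · exact exU_total (by decide) hU.1 M hM
    · exact exU_total (by decide) hP.1 M hM
    · have hk : M.map Prod.fst ∈ pats w := by
        rw [← hA2]
        exact Multiset.mem_map_of_mem _ hM
      obtain ⟨h7, h8⟩ := pats_ok hk
      exact tot_le_of_kinds (E := EE Φ) (by rw [hE]; linarith) (by rw [hE, hB]; linarith) rfl h7 h8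
        (fun i hi => (item_bd h i (hmem M hM' i hi)).2)
  have := sol_of_pats (LL_pos Φ) (size (BB Φ)) (lst X Y Z c Φ) hq P (fun p hp => ⟨fun i hi => by
    have := hmem p hp i hi
    rw [← lst_coe] at this
    exact this, (sum_iff h p (hmem p hp)).2 (htot p hp)⟩) (by rw [lst_coe, hjoin])
  rwa [hcard] at this

end

/-- the weights of the wasteful patterns, in units of `1 / (14 α)` -/
theorem weights {α β γ T TP G : ℤ} (hα : 1 ≤ α) (hβ : 0 ≤ β) (hγ : 0 ≤ γ) (hT : 0 ≤ T)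
    (hTP : 0 ≤ TP) (hG : 2 * (T + TP + β + γ + 2) ≤ G) : ∃ w : Wts,
    (w.w1 : ℤ) = 14 * (α * G) - 8 * α + 10 * (β - α * T) - 6 * (γ - α * TP) ∧
    (w.w2 : ℤ) = 14 * (α * G) - 14 * (β - α * T) ∧
    (w.w3 : ℤ) = 14 * (α * G) + 14 * α - 14 * (β - α * T) ∧
    (w.w5 : ℤ) = 14 * (α * G) - 14 * (β - α * T) ∧
    (w.w6 : ℤ) = 14 * (α * G) - 10 * α + 16 * (β - α * T) - 18 * (γ - α * TP) ∧
    (w.w8 : ℤ) = 14 * (α * G) + 5 * α - 15 * (β - α * T) + 9 * (γ - α * TP) ∧
    (w.w11 : ℤ) = 14 * (α * G) - 14 * (β - α * T) := by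
  have hGα : α * (2 * (T + TP + β + γ + 2)) ≤ α * G := by
    exact mul_le_mul_of_nonneg_left hG (by linarith)
  have e : α * (2 * (T + TP + β + γ + 2)) =
    2 * (α * T) + 2 * (α * TP) + 2 * (α * β) + 2 * (α * γ) + 4 * α := by ring
  rw [e] at hGα
  have p1 : 0 ≤ α * T := by positivity
  have p2 : 0 ≤ α * TP := by positivity
  have p3 : β ≤ α * β := by nlinarith
  have p4 : γ ≤ α * γ := by nlinarith
  obtain ⟨w1, hw1⟩ := Int.eq_ofNat_of_zero_le
    (a := 14 * (α * G) - 8 * α + 10 * (β - α * T) - 6 * (γ - α * TP)) (by linarith)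
  obtain ⟨w2, hw2⟩ := Int.eq_ofNat_of_zero_le (a := 14 * (α * G) - 14 * (β - α * T)) (by linarith)
  obtain ⟨w3, hw3⟩ := Int.eq_ofNat_of_zero_le
    (a := 14 * (α * G) + 14 * α - 14 * (β - α * T)) (by linarith)
  obtain ⟨w6, hw6⟩ := Int.eq_ofNat_of_zero_le
    (a := 14 * (α * G) - 10 * α + 16 * (β - α * T) - 18 * (γ - α * TP)) (by linarith)
  obtain ⟨w8, hw8⟩ := Int.eq_ofNat_of_zero_le
    (a := 14 * (α * G) + 5 * α - 15 * (β - α * T) + 9 * (γ - α * TP)) (by linarith)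
  exact ⟨⟨w1, w2, w3, w2, w6, w8, w2⟩, hw1.symm, hw2.symm, hw3.symm, hw2.symm, hw6.symm, hw8.symm,
    hw2.symm⟩

theorem outer_node {X Y Z : Multiset ℤ} {T TP qU qP : ℕ} {WU WP : Multiset (ℤ × ℤ × ℤ)}
    (hqU : 0 < qU) (hqP : 0 < qP) (hU : ∀ S, UPack X Y S → Multiset.card S ≤ T)
    (hP : ∀ S, PPack Z S → Multiset.card S ≤ TP) (hWU : UPack (qU • X) (qU • Y) WU)
    (hWP : PPack (qP • Z) WP) :
    ∃ (L : ℕ) (xs : List ℕ) (N v : ℕ), 0 < L ∧ (∀ x ∈ xs, 0 < x ∧ x ≤ L) ∧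
      ¬ Packable (inst L xs) N ∧
      (∃ z, IsLPSolution (inst L xs) z ∧ (v : ℝ) / (14 * (qU * qP) : ℕ) = z.sum (fun _ w => w)) ∧
      (14 * (qU * qP) * (N + 1) : ℤ) - v =
        13 * (qU * qP) + 3 * (qP * (WU.card - qU * T)) + qU * (WP.card - qP * TP) := by
  obtain ⟨Φ, hΦ⟩ := exists_bound (X + Y + Z)
  obtain ⟨G, hG⟩ : ∃ G : ℕ, G = 2 * (T + TP + qP * WU.card + qU * WP.card + 2) + X.card + Y.card +
    Z.card := ⟨_, rfl⟩
  have hα1 : (1 : ℤ) ≤ (qU : ℤ) * qP := by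
    have h2 : (0 : ℤ) < ((qU * qP : ℕ) : ℤ) := by exact_mod_cast Nat.mul_pos hqU hqP
    push_cast at h2
    linarith
  obtain ⟨w, e1, e2, e3, e5, e6, e8, e11⟩ := weights (α := (qU : ℤ) * qP) (β := (qP : ℤ) * WU.card)
    (γ := (qU : ℤ) * WP.card) (T := T) (TP := TP) (G := G) hα1 (by positivity) (by positivity)
    (by positivity) (by positivity) (by rw [hG]; push_cast; linarith)
  have hD : Data X Y Z ⟨T + G, 2 * T + 4 * G, T + G, 2 * T + 2 * G + 1, T + G, 2 * T + 7 * G,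
    3 * TP + 6 * G⟩ Φ := by
    refine ⟨hΦ, ?_, ?_, ?_, ?_, ?_, ?_, ?_⟩ <;> simp only <;> omega
  have hU14 : UPack ((14 * (qU * qP)) • X) ((14 * (qU * qP)) • Y) ((14 * qP) • WU) := by
    have := UPack.nsmul hWU (14 * qP)
    rw [← mul_nsmul', ← mul_nsmul'] at this
    have e : 14 * qP * qU = 14 * (qU * qP) := by ring
    rwa [e] at this
  have hP14 : PPack ((14 * (qU * qP)) • Z) ((14 * qU) • WP) := by
    have := PPack.nsmul hWP (14 * qU)
    rw [← mul_nsmul'] at this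
    have e : 14 * qU * qP = 14 * (qU * qP) := by ring
    rwa [e] at this
  have hq : 0 < 14 * (qU * qP) := by positivity
  have key := upper hD hq hU14 hP14 (w := w) ?_ ?_ ?_ ?_ ?_ ?_ ?_
  · refine ⟨_, _, 3 * T + TP + 7 * G, _, LL_pos Φ, sizes_ok hD, lower hD hU hP ?_, key, ?_⟩
    · simp only
      omega
    · rw [Multiset.card_nsmul, Multiset.card_nsmul]
      push_cast
      rw [e1, e2, e3, e5, e6, e8, e11]
      ring
  all_goals
    rw [← Int.natCast_inj]
    simp only [Multiset.card_nsmul]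
    push_cast
    simp only [e1, e2, e3, e5, e6, e8, e11]
    ring

end Vale.Agent.P302.Node
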