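import Mathlib

/-!
# The problem of exact patterns `(x, x', x'')` in one class
-/

namespace Vale.Agent.P302

/-- `S` is a collection of usable triples `(x, x', x'')`, `x + x' + x'' ≤ 0`, that together use
every element of `X` at most as often as it occurs there -/
def PPack (X : Multiset ℤ) (S : Multiset (ℤ × ℤ × ℤ)) : Prop :=
  (∀ t ∈ S, t.1 + t.2.1 + t.2.2 ≤ 0) ∧
    S.map (fun t => t.1) + S.map (fun t => t.2.1) + S.map (fun t => t.2.2) ≤ X

/-- there is a problem whose integral optimum is at most `T` and which has a fractional solution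
(an integral one for the `q`-fold problem) of value `V` -/
def PDef (T : ℕ) (V : ℚ) : Prop :=
  ∃ (X : Multiset ℤ) (q : ℕ) (W : Multiset (ℤ × ℤ × ℤ)), 0 < q ∧
    (∀ S, PPack X S → Multiset.card S ≤ T) ∧ PPack (q • X) W ∧
    (Multiset.card W : ℚ) = q * V

end Vale.Agent.P302
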