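import Vale.Agent.P302.H877.OuterNode

/-!
# From the outer node to instances with every large value of `OPT`
-/

namespace Vale.Agent.P302

theorem gap_of_defs {T TP : ℕ} {V VP : ℚ} (hU : UDef T V) (hP : PDef TP VP) :
    ∃ K : ℕ, ∀ k : ℕ, K ≤ k → ∃ I : List ℚ, IsInstance I ∧ OPT I = k ∧
      (13 + 3 * ((V : ℝ) - T) + ((VP : ℝ) - TP)) / 14 ≤ (OPT I : ℝ) - LP I := by
  obtain ⟨X, Y, qU, WU, hqU, hU1, hU2, hU3⟩ := hU
  obtain ⟨Z, qP, WP, hqP, hP1, hP2, hP3⟩ := hP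
  obtain ⟨L, xs, N, v, hL, hxs, hN, ⟨z, hz1, hz2⟩, he⟩ :=
    Node.outer_node hqU hqP hU1 hP1 hU2 hP2
  have hI : IsInstance (inst L xs) := isInstance_inst hL hxs
  have hopt := opt_ge hI hN
  obtain ⟨m, hm⟩ : ∃ m, OPT (inst L xs) = m + 1 := ⟨OPT (inst L xs) - 1, by omega⟩
  have hp1 : Packable (inst L xs) (m + 1) := by
    rw [← hm]
    exact Nat.sInf_mem (s := {k | Packable (inst L xs) k}) ⟨_, packable_length hI⟩
  have hp2 : ¬ Packable (inst L xs) m := by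
    intro h
    have : OPT (inst L xs) ≤ m := Nat.sInf_le h
    omega
  have hNm : N ≤ m := by omega
  refine ⟨m + 1, fun k hk => ?_⟩
  obtain ⟨J, hJ1, hJ2, hJ3⟩ := family hI hp1 hp2 ⟨z, hz1, rfl⟩ (k - (m + 1))
  have hk' : m + (k - (m + 1)) + 1 = k := by omega
  rw [hk'] at hJ2
  refine ⟨J, hJ1, hJ2, ?_⟩
  rw [← hz2] at hJ3
  have hk2 : ((k - (m + 1) : ℕ) : ℝ) = (k : ℝ) - (m + 1) := by
    rw [Nat.cast_sub hk]
    push_cast
    ring
  rw [hk2] at hJ3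
  rw [hJ2]
  have hα : (0 : ℝ) < (qU : ℝ) * qP := by positivity
  have hNm' : (N : ℝ) ≤ m := by exact_mod_cast hNm
  have e3 : (WU.card : ℝ) = qU * V := by exact_mod_cast congrArg (fun x : ℚ => (x : ℝ)) hU3
  have e4 : (WP.card : ℝ) = qP * VP := by exact_mod_cast congrArg (fun x : ℚ => (x : ℝ)) hP3
  have he' : (14 * ((qU : ℝ) * qP) * (N + 1)) - v =
        13 * (qU * qP) + 3 * (qP * (WU.card - qU * T)) + qU * (WP.card - qP * TP) := by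
    exact_mod_cast congrArg (fun x : ℤ => (x : ℝ)) he
  rw [e3, e4] at he'
  have hv : (v : ℝ) / (14 * (qU * qP) : ℕ) =
      (N + 1) - (13 + 3 * ((V : ℝ) - T) + ((VP : ℝ) - TP)) / 14 := by
    push_cast
    rw [div_eq_iff (by positivity)]
    linear_combination (-1 : ℝ) * he'
  rw [hv] at hJ3
  linarith

/-- if the deficiencies of the two auxiliary problems come arbitrarily close to `2` and `5/3`, then
`OPT - LP` comes arbitrarily close to `31/21` -/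
theorem gap_limit (hU : ∀ ε : ℚ, 0 < ε → ∃ (T : ℕ) (V : ℚ), UDef T V ∧ V - T > 2 - ε)
    (hP : ∀ ε : ℚ, 0 < ε → ∃ (T : ℕ) (V : ℚ), PDef T V ∧ V - T > 5 / 3 - ε) (ε : ℝ)
    (hε : 0 < ε) : ∃ K : ℕ, ∀ k : ℕ, K ≤ k → ∃ I : List ℚ, IsInstance I ∧ OPT I = k ∧
      31 / 21 - ε < (OPT I : ℝ) - LP I := by
  obtain ⟨δ, hδ0, hδ⟩ := exists_rat_btwn hε
  have hδ0' : 0 < δ := by exact_mod_cast hδ0
  obtain ⟨T, V, h1, h2⟩ := hU δ hδ0'
  obtain ⟨TP, VP, h3, h4⟩ := hP δ hδ0'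
  obtain ⟨K, hK⟩ := gap_of_defs h1 h3
  refine ⟨K, fun k hk => ?_⟩
  obtain ⟨I, hI1, hI2, hI3⟩ := hK k hk
  refine ⟨I, hI1, hI2, ?_⟩
  have h2' : (2 : ℝ) - δ < (V : ℝ) - T := by exact_mod_cast h2
  have h4' : (5 / 3 : ℝ) - δ < (VP : ℝ) - TP := by
    have : ((5 / 3 - δ : ℚ) : ℝ) < ((VP - TP : ℚ) : ℝ) := by exact_mod_cast h4
    push_cast at this
    exact this
  linarith

end Vale.Agent.P302
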