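import Mathlib

/-!
# Cutting a multiset of items into bins with prescribed kinds
-/

namespace Vale.Agent.P302

theorem map_eq_add_split {ι κ : Type*} (f : ι → κ) :
    ∀ (w : Multiset κ) {R : Multiset ι} {u : Multiset κ}, R.map f = w + u →
      ∃ b c, R = b + c ∧ b.map f = w ∧ c.map f = u := by
  classical
  intro w
  induction w using Multiset.induction with
  | empty =>
    intro R u h
    exact ⟨0, R, by simp, by simp, by simpa using h⟩
  | cons a w ih =>
    intro R u h
    rw [Multiset.cons_add] at h
    obtain ⟨x, hx, hfx, hR⟩ := (Multiset.map_eq_cons f R (w + u) a).2 h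
    obtain ⟨b, c, h1, h2, h3⟩ := ih hR
    refine ⟨x ::ₘ b, c, ?_, ?_, h3⟩
    · rw [Multiset.cons_add, ← h1, Multiset.cons_erase hx]
    · rw [Multiset.map_cons, hfx, h2]

/-- if the kinds of the items `R` are the kinds of the patterns `W`, then `R` can be cut into bins
with these patterns -/
theorem assemble {ι κ : Type*} (f : ι → κ) (W : Multiset (Multiset κ)) :
    ∀ (R : Multiset ι), R.map f = W.join →
      ∃ B : Multiset (Multiset ι), B.join = R ∧ B.map (Multiset.map f) = W := by
  induction W using Multiset.induction with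
  | empty =>
    intro R h
    refine ⟨0, ?_, by simp⟩
    rw [Multiset.join_zero, Multiset.map_eq_zero] at h
    simp [h]
  | cons w W ih =>
    intro R h
    rw [Multiset.join_cons] at h
    obtain ⟨b, c, h1, h2, h3⟩ := map_eq_add_split f w h
    obtain ⟨B, h4, h5⟩ := ih c h3
    refine ⟨b ::ₘ B, ?_, ?_⟩
    · rw [Multiset.join_cons, h4, h1]
    · rw [Multiset.map_cons, h2, h5]

end Vale.Agent.P302
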