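import Vale.Agent.P302.H877.FamUpper
import Vale.Agent.P302.H877.OuterNode

/-!
# The outer family: instances with gap `1 + (m D - 1) / (4 m + 1)`
-/

namespace Vale.Agent.P302.Fam

open Vale.Agent.P302 Vale.Agent.P302.Tags

theorem node {m : ℕ} (hm : 0 < m) {X Y : Multiset ℤ} {T qU : ℕ} {W : Multiset (ℤ × ℤ × ℤ)}
    (hqU : 0 < qU) (hU : ∀ S, UPack X Y S → Multiset.card S ≤ T)
    (hW : UPack (qU • X) (qU • Y) W) :
    ∃ (L : ℕ) (zs : List ℕ) (N v : ℕ), 0 < L ∧ (∀ x ∈ zs, 0 < x ∧ x ≤ L) ∧
      ¬ Packable (inst L zs) N ∧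
      (∃ z, IsLPSolution (inst L zs) z ∧ (v : ℝ) / ((4 * m + 1) * qU : ℕ) = z.sum (fun _ w => w)) ∧
      v + m * W.card = qU * (m * T + 1 + (4 * m + 1) * N) := by
  obtain ⟨Φ, hΦb⟩ := exists_bound (X + Y)
  have hX : ∀ x ∈ X, -(Φ : ℤ) ≤ x ∧ x ≤ Φ := fun x hx => hΦb x (by simp [hx])
  have hY : ∀ y ∈ Y, -(Φ : ℤ) ≤ y ∧ y ≤ Φ := fun x hx => hΦb x (by simp [hx])
  have hΦ : (0 : ℤ) ≤ (Φ : ℤ) := by positivity
  -- the number of sand items
  obtain ⟨n, N, hn, hnN⟩ : ∃ n N : ℕ, (4 * m + 1) * qU * (blk X Y m).card +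
      (4 * m + 2) * (m * W.card) ≤ n ∧
      price m (blk X Y m) + n = m * T + 1 + (4 * m + 1) * N := by
    obtain ⟨K, hK⟩ : ∃ K, K = (4 * m + 1) * qU * (blk X Y m).card + (4 * m + 2) * (m * W.card) :=
      ⟨_, rfl⟩
    refine ⟨m * T + 1 + (4 * m + 1) * (K + price m (blk X Y m)) - price m (blk X Y m),
      K + price m (blk X Y m), ?_, ?_⟩
    · rw [← hK]
      have : K + price m (blk X Y m) ≤ (4 * m + 1) * (K + price m (blk X Y m)) :=
        Nat.le_mul_of_pos_left _ (by omega)
      omega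
    · have : K + price m (blk X Y m) ≤ (4 * m + 1) * (K + price m (blk X Y m)) :=
        Nat.le_mul_of_pos_left _ (by omega)
      omega
  set l : List It := (items m X Y n).toList with hl
  have hlI : (l : Multiset It) = items m X Y n := Multiset.coe_toList _
  have hadm : ∀ i ∈ items m X Y n, Adm m (Φ : ℤ) i := adm_items hX hY
  -- the scaled fractional solution
  obtain ⟨Q, hQ⟩ : ∃ Q, Q = (4 * m + 1) * qU := ⟨_, rfl⟩
  have hQ0 : 0 < Q := by rw [hQ]; positivity
  have hW' : UPack (Q • X) (Q • Y) ((4 * m + 1) • W) := by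
    have := Node.UPack.nsmul hW (4 * m + 1)
    rw [← mul_nsmul', ← mul_nsmul', ← hQ] at this
    exact this
  obtain ⟨W', hW''⟩ : ∃ W', W' = (4 * m + 1) • W := ⟨_, rfl⟩
  rw [← hW''] at hW'
  have hcW : W'.card = (4 * m + 1) * W.card := by rw [hW'', Multiset.card_nsmul]
  obtain ⟨R, hR⟩ := Multiset.le_iff_exists_add.1 (join_exs_le hW' m)
  have hRadm : ∀ i ∈ R, Adm m (Φ : ℤ) i := by
    intro i hi
    have h1 : i ∈ Q • blk X Y m := by rw [hR]; simp [hi]
    have h2 := Multiset.mem_of_mem_nsmul h1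
    exact hadm i (by unfold items; simp [h2])
  have hRcard : R.card ≤ Q * (blk X Y m).card := by
    have := congrArg Multiset.card hR
    rw [Multiset.card_nsmul, Multiset.card_add] at this
    omega
  have hRprice : price m R + (4 * m + 2) * (m * W'.card) = Q * price m (blk X Y m) := by
    have := congrArg (price m) hR
    rw [price_nsmul, price_add, price_exs W' m le_rfl] at this
    linarith
  have hneed := need_eq (Φ := (Φ : ℤ)) hm R hRadm
  -- the number of bins with sand only
  obtain ⟨k, hk⟩ : ∃ k : ℕ, k + R.card + (4 * m + 2) * (m * W.card) =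
      qU * n + qU * price m (blk X Y m) := by
    have h1 : n ≤ qU * n := Nat.le_mul_of_pos_left _ hqU
    refine ⟨qU * n + qU * price m (blk X Y m) - (R.card + (4 * m + 2) * (m * W.card)), ?_⟩
    rw [← hQ] at hn
    omega
  have hsand : Q * n = need m R + k * (4 * m + 1) := by
    have e1 : (4 * m + 1) * (k + R.card + (4 * m + 2) * (m * W.card)) =
      (4 * m + 1) * (qU * n + qU * price m (blk X Y m)) := by rw [hk]
    rw [hcW] at hRprice
    have e2 : (4 * m + 1) * (qU * n + qU * price m (blk X Y m)) =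
      Q * n + Q * price m (blk X Y m) := by rw [hQ]; ring
    rw [e2, ← hRprice] at e1
    nlinarith
  set P : Multiset (Multiset It) := exs W' m + R.map (fill m) +
    Multiset.replicate k (Multiset.replicate (4 * m + 1) It.S) with hP
  have hjoin : P.join = Q • items m X Y n := by
    rw [hP, Multiset.join_add, Multiset.join_add, join_fill, join_replicate, nsmul_replicate']
    unfold items
    rw [nsmul_add, hR, nsmul_replicate', hsand, Multiset.replicate_add]
    abel
  have hmem : ∀ M ∈ P, ∀ i ∈ M, i ∈ items m X Y n := by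
    intro M hM i hi
    have : i ∈ P.join := Multiset.mem_join.2 ⟨M, hM, hi⟩
    rw [hjoin] at this
    exact Multiset.mem_of_mem_nsmul this
  have htot : ∀ M ∈ P, (M.map (sz m (Φ : ℤ))).sum ≤ B2 m (Φ : ℤ) * (AA m ^ 2 + 3) := by
    intro M hM
    have hM' := hmem M hM
    rw [hP] at hM
    simp only [Multiset.mem_add] at hM
    rcases hM with (hM | hM) | hM
    · obtain ⟨t, ht, w, hw, rfl⟩ := mem_exs hM
      exact fit_ex t ht (hW'.1 w hw)
    · obtain ⟨i, hi, rfl⟩ := Multiset.mem_map.1 hM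
      have h1 := one i (hRadm i hi) hm
      have h2 := pr_pos i (hRadm i hi)
      refine fit hΦ _ (fun j hj => hadm j (hM' j hj)) ?_ ?_
      · unfold fill
        rw [price_add, price_sand]
        have : price m {i} = pr m i := by simp [price]
        rw [this]
        omega
      · unfold fill
        rw [Multiset.card_add, Multiset.card_singleton, Multiset.card_replicate]
        omega
    · rw [Multiset.mem_replicate] at hM
      rw [hM.2]
      refine fit hΦ _ (fun j hj => ?_) (price_sand _ _) (by rw [Multiset.card_replicate])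
      rw [Multiset.eq_of_mem_replicate hj]
      trivial
  have hcard : P.card + m * W.card = qU * (m * T + 1 + (4 * m + 1) * N) := by
    rw [← hnN, hP]
    simp only [Multiset.card_add, card_exs, Multiset.card_map, Multiset.card_replicate]
    rw [hcW]
    nlinarith
  have hsol := Node.sol_of_pats (cap_pos (m := m) hΦ) (nsz m (Φ : ℤ)) l hQ0 P
    (fun p hp => ⟨fun i hi => by
      have := hmem p hp i hi
      rw [← hlI] at this
      exact this, (nsz_iff hΦ hm p (fun i hi => hadm i (hmem p hp i hi))).2 (htot p hp)⟩)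
    (by rw [hlI, hjoin])
  rw [hQ] at hsol
  refine ⟨cap m (Φ : ℤ), l.map (nsz m (Φ : ℤ)), N, P.card, cap_pos hΦ, ?_, ?_, hsol, hcard⟩
  · intro x hx
    obtain ⟨i, hi, rfl⟩ := List.mem_map.1 hx
    have hi' : i ∈ items m X Y n := by rw [← hlI]; exact hi
    have h1 := sz_pos hΦ hm (hadm i hi')
    have h2 := cap_cast (m := m) hΦ
    unfold nsz
    omega
  · intro hpack
    obtain ⟨P', hPc, hPj, hPs⟩ := tpack_of_packable (cap_pos (m := m) hΦ) (nsz m (Φ : ℤ)) l hpack
    rw [hlI] at hPj
    have hmem' : ∀ M ∈ P', ∀ i ∈ M, i ∈ items m X Y n := by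
      intro M hM i hi
      rw [← hPj]
      exact Multiset.mem_join.2 ⟨M, hM, hi⟩
    have := bins_ge hΦ hm hX hY hU P' hPj (fun M hM =>
      (nsz_iff hΦ hm M (fun i hi => hadm i (hmem' M hM i hi))).1 (hPs M hM))
    rw [hPc, hnN] at this
    omega

end Vale.Agent.P302.Fam
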