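import Vale.Agent.P302.H794.Tagged
import Vale.Agent.P302.H794.UProb
import Vale.Agent.P302.H794.Tags

/-!
# The outer family: items, sizes, classification of bins

`m` gadgets; the items of gadget `t` have the macro sizes `2 t + 1` (the `x`-items) and `4 (m - t)`
(the `y`-items), there is also sand of macro size `1`; the macro capacity is `A = 4 m + 2`.
-/

namespace Vale.Agent.P302.Fam

open Vale.Agent.P302

/-- items -/
inductive It where
  | X (t : ℕ) (x : ℤ)
  | Y (t : ℕ) (y : ℤ)
  | S

/-- the price (and macro size) of an item -/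
def pr (m : ℕ) : It → ℕ
  | It.X t _ => 2 * t + 1
  | It.Y t _ => 4 * (m - t)
  | It.S => 1

/-- the second order part of the size -/
def ep : It → ℤ
  | It.X t _ => (t : ℤ) ^ 2
  | It.Y t _ => -2 * (t : ℤ) ^ 2
  | It.S => 1

/-- the fine part of the size -/
def fi : It → ℤ
  | It.X _ x => x
  | It.Y _ y => y
  | It.S => 0

/-- an admissible item -/
def Adm (m : ℕ) (Φ : ℤ) : It → Prop
  | It.X t x => t < m ∧ -Φ ≤ x ∧ x ≤ Φ
  | It.Y t y => t < m ∧ -Φ ≤ y ∧ y ≤ Φ
  | It.S => True

/-- unit of the second order part -/
def B1 (Φ : ℤ) : ℤ := 3 * Φ + 1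

/-- bound for the lower order parts of one item -/
def cc (m : ℕ) (Φ : ℤ) : ℤ := B1 Φ * (2 * (m : ℤ) ^ 2 + 1) + Φ

/-- the macro capacity -/
def AA (m : ℕ) : ℤ := 4 * m + 2

/-- the macro unit -/
def B2 (m : ℕ) (Φ : ℤ) : ℤ := (AA m ^ 2 + 4) * cc m Φ + 1

/-- the size of an item -/
def sz (m : ℕ) (Φ : ℤ) (i : It) : ℤ := B2 m Φ * (AA m * pr m i + 1) + (B1 Φ * ep i + fi i)

/-- total price of a bin -/
def price (m : ℕ) (M : Multiset It) : ℕ := (M.map (pr m)).sum

theorem price_add (m : ℕ) (M N : Multiset It) : price m (M + N) = price m M + price m N := by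
  unfold price
  rw [Multiset.map_add, Multiset.sum_add]

theorem price_cons (m : ℕ) (i : It) (N : Multiset It) : price m (i ::ₘ N) = pr m i + price m N := by
  unfold price
  rw [Multiset.map_cons, Multiset.sum_cons]

theorem price_zero (m : ℕ) : price m 0 = 0 := by simp [price]

theorem price_nsmul (m k : ℕ) (M : Multiset It) : price m (k • M) = k * price m M := by
  unfold price
  rw [Multiset.map_nsmul, Multiset.sum_nsmul, smul_eq_mul]

variable {m : ℕ} {Φ : ℤ}

theorem low_bound (hΦ : 0 ≤ Φ) {i : It} (h : Adm m Φ i) :
    -cc m Φ ≤ B1 Φ * ep i + fi i ∧ B1 Φ * ep i + fi i ≤ cc m Φ := by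
  have hB : 1 ≤ B1 Φ := by unfold B1; linarith
  have hm : (0 : ℤ) ≤ (m : ℤ) ^ 2 := by positivity
  unfold cc
  cases i with
  | X t x =>
    obtain ⟨h1, h2, h3⟩ := h
    have ht : (t : ℤ) ^ 2 ≤ (m : ℤ) ^ 2 := by
      have : (t : ℤ) < m := by exact_mod_cast h1
      have h0 : (0 : ℤ) ≤ t := by positivity
      nlinarith
    have ht0 : (0 : ℤ) ≤ (t : ℤ) ^ 2 := by positivity
    simp only [ep, fi]
    constructor
    · nlinarith
    · nlinarith
  | Y t y =>
    obtain ⟨h1, h2, h3⟩ := h
    have ht : (t : ℤ) ^ 2 ≤ (m : ℤ) ^ 2 := by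
      have : (t : ℤ) < m := by exact_mod_cast h1
      have h0 : (0 : ℤ) ≤ t := by positivity
      nlinarith
    have ht0 : (0 : ℤ) ≤ (t : ℤ) ^ 2 := by positivity
    simp only [ep, fi]
    constructor
    · nlinarith
    · nlinarith
  | S =>
    simp only [ep, fi]
    constructor
    · nlinarith
    · nlinarith

theorem tot_eq (m : ℕ) (Φ : ℤ) (M : Multiset It) :
    (M.map (sz m Φ)).sum = B2 m Φ * (AA m * price m M + M.card) +
      (M.map (fun i => B1 Φ * ep i + fi i)).sum := by
  induction M using Multiset.induction with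
  | empty => simp [price]
  | cons i M ih =>
    rw [Multiset.map_cons, Multiset.sum_cons, ih, Multiset.map_cons, Multiset.sum_cons, price_cons,
      Multiset.card_cons]
    unfold sz
    push_cast
    ring

theorem low_sum (hΦ : 0 ≤ Φ) (M : Multiset It) (h : ∀ i ∈ M, Adm m Φ i) :
    -(cc m Φ * M.card) ≤ (M.map (fun i => B1 Φ * ep i + fi i)).sum ∧
      (M.map (fun i => B1 Φ * ep i + fi i)).sum ≤ cc m Φ * M.card := by
  induction M using Multiset.induction with
  | empty => simp
  | cons i M ih =>
    obtain ⟨h1, h2⟩ := ih (fun j hj => h j (by simp [hj]))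
    obtain ⟨h3, h4⟩ := low_bound hΦ (h i (by simp))
    rw [Multiset.map_cons, Multiset.sum_cons, Multiset.card_cons]
    push_cast
    constructor
    · linarith
    · linarith

theorem cc_pos (hΦ : 0 ≤ Φ) : 1 ≤ cc m Φ := by
  have hB : 1 ≤ B1 Φ := by unfold B1; linarith
  have hm : (0 : ℤ) ≤ (m : ℤ) ^ 2 := by positivity
  unfold cc
  nlinarith

/-- three items of total price `A` and small second order part -/
theorem three (i j k : It) (hi : Adm m Φ i) (hj : Adm m Φ j) (hk : Adm m Φ k)
    (hp : pr m i + pr m j + pr m k = 4 * m + 2) (he : ep i + ep j + ep k ≤ 0) :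
    ∃ t x x' y, t < m ∧ ({i, j, k} : Multiset It) = {It.X t x, It.X t x', It.Y t y} := by
  have key : ∀ a b c : ℕ, a + b = 2 * c → (a : ℤ) ^ 2 + (b : ℤ) ^ 2 + -2 * (c : ℤ) ^ 2 ≤ 0 →
      a = c ∧ b = c := by
    intro a b c h1 h2
    have h1' : (a : ℤ) + b = 2 * c := by exact_mod_cast h1
    have h3 : ((a : ℤ) - c) ^ 2 ≤ 0 := by nlinarith
    have h4 : (a : ℤ) = c := by nlinarith
    have h5 : (b : ℤ) = c := by linarith
    exact ⟨by exact_mod_cast h4, by exact_mod_cast h5⟩
  cases i with
  | X a x =>
    cases j with
    | X b x' =>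
      cases k with
      | X c x'' => simp only [pr] at hp; omega
      | Y c y =>
        simp only [pr, ep, Adm] at *
        obtain ⟨e1, e2⟩ := key a b c (by omega) he
        subst e1 e2
        exact ⟨_, x, x', y, hi.1, rfl⟩
      | S => simp only [pr] at hp; omega
    | Y b y =>
      cases k with
      | X c x' =>
        simp only [pr, ep, Adm] at *
        obtain ⟨e1, e2⟩ := key a c b (by omega) (by linarith)
        subst e1 e2
        exact ⟨_, x, x', y, hi.1, congrArg (fun z => It.X _ x ::ₘ z) (Multiset.pair_comm _ _)⟩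
      | Y c y' => simp only [pr, Adm] at *; omega
      | S =>
        simp only [pr, ep, Adm] at *
        have hab : a = 2 * b := by omega
        subst hab
        push_cast at he
        nlinarith [sq_nonneg (b : ℤ)]
    | S =>
      cases k with
      | X c x' => simp only [pr] at hp; omega
      | Y c y =>
        simp only [pr, ep, Adm] at *
        have hab : a = 2 * c := by omega
        subst hab
        push_cast at he
        nlinarith [sq_nonneg (c : ℤ)]
      | S => simp only [pr] at hp; omega
  | Y a y =>
    cases j with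
    | X b x =>
      cases k with
      | X c x' =>
        simp only [pr, ep, Adm] at *
        obtain ⟨e1, e2⟩ := key b c a (by omega) (by linarith)
        subst e1 e2
        refine ⟨_, x, x', y, hj.1, ?_⟩
        have : ({It.Y c y, It.X c x, It.X c x'} : Multiset It) =
            {It.X c x, It.Y c y, It.X c x'} := by
          simp only [Multiset.insert_eq_cons]
          exact Multiset.cons_swap _ _ _
        rw [this]
        exact congrArg (fun z => It.X _ x ::ₘ z) (Multiset.pair_comm _ _)
      | Y c y' => simp only [pr, Adm] at *; omega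
      | S =>
        simp only [pr, ep, Adm] at *
        have hab : b = 2 * a := by omega
        subst hab
        push_cast at he
        nlinarith [sq_nonneg (a : ℤ)]
    | Y b y' =>
      cases k with
      | X c x' => simp only [pr, Adm] at *; omega
      | Y c y'' => simp only [pr, Adm] at *; omega
      | S => simp only [pr, Adm] at *; omega
    | S =>
      cases k with
      | X c x' =>
        simp only [pr, ep, Adm] at *
        have hab : c = 2 * a := by omega
        subst hab
        push_cast at he
        nlinarith [sq_nonneg (a : ℤ)]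
      | Y c y' => simp only [pr, Adm] at *; omega
      | S =>
        simp only [pr, ep, Adm] at *
        have hab : a = 0 := by omega
        subst hab
        norm_num at he
  | S =>
    cases j with
    | X b x =>
      cases k with
      | X c x' => simp only [pr] at hp; omega
      | Y c y =>
        simp only [pr, ep, Adm] at *
        have hab : b = 2 * c := by omega
        subst hab
        push_cast at he
        nlinarith [sq_nonneg (c : ℤ)]
      | S => simp only [pr] at hp; omega
    | Y b y =>
      cases k with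
      | X c x' =>
        simp only [pr, ep, Adm] at *
        have hab : c = 2 * b := by omega
        subst hab
        push_cast at he
        nlinarith [sq_nonneg (b : ℤ)]
      | Y c y' => simp only [pr, Adm] at *; omega
      | S =>
        simp only [pr, ep, Adm] at *
        have hab : b = 0 := by omega
        subst hab
        norm_num at he
    | S =>
      cases k with
      | X c x' => simp only [pr] at hp; omega
      | Y c y =>
        simp only [pr, ep, Adm] at *
        have hab : c = 0 := by omega
        subst hab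
        norm_num at he
      | S => simp only [pr] at hp; omega

/-- one item has a price less than `A`, two items cannot have total price `A` -/
theorem one (i : It) (hi : Adm m Φ i) (hm : 0 < m) : pr m i ≤ 4 * m := by
  cases i with
  | X a x => simp only [pr, Adm] at *; omega
  | Y a y => simp only [pr, Adm] at *; omega
  | S => simp only [pr] at *; omega

theorem two (i j : It) (hi : Adm m Φ i) (hj : Adm m Φ j) (hm : 0 < m) :
    pr m i + pr m j ≠ 4 * m + 2 := by
  cases i <;> cases j <;> simp only [pr, Adm] at * <;> omega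

theorem cls (hΦ : 0 ≤ Φ) (hm : 0 < m) (M : Multiset It) (h : ∀ i ∈ M, Adm m Φ i)
    (ht : (M.map (sz m Φ)).sum ≤ B2 m Φ * (AA m ^ 2 + 3)) :
    price m M ≤ 4 * m + 1 ∨
      ∃ t x x' y, t < m ∧ M = {It.X t x, It.X t x', It.Y t y} ∧ x + x' + y ≤ 0 := by
  by_cases hs : price m M ≤ 4 * m + 1
  · exact Or.inl hs
  right
  obtain ⟨hl, _⟩ := low_sum hΦ M h
  rw [tot_eq] at ht
  have hc := cc_pos (m := m) hΦ
  have hB2 : B2 m Φ = (AA m ^ 2 + 4) * cc m Φ + 1 := rfl
  have hA : (6 : ℤ) ≤ AA m := by
    unfold AA
    have : (1 : ℤ) ≤ m := by exact_mod_cast hm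
    linarith
  have hp0 : (0 : ℤ) ≤ price m M := by positivity
  have hc0 : (0 : ℤ) ≤ M.card := by positivity
  have hB2' : cc m Φ ≤ B2 m Φ := by rw [hB2]; nlinarith
  have hW : AA m * price m M + M.card ≤ AA m ^ 2 + 3 := by
    by_contra hcon
    push Not at hcon
    have h1 : AA m ^ 2 + 4 ≤ AA m * price m M + M.card := by omega
    have h2 : (M.card : ℤ) ≤ AA m * price m M + M.card := by
      have : 0 ≤ AA m * price m M := by positivity
      linarith
    have h3 : cc m Φ * M.card ≤ cc m Φ * (AA m * price m M + M.card) :=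
      mul_le_mul_of_nonneg_left h2 (by linarith)
    have h4 : (B2 m Φ - cc m Φ) * (AA m ^ 2 + 4) ≤
        (B2 m Φ - cc m Φ) * (AA m * price m M + M.card) :=
      mul_le_mul_of_nonneg_left h1 (by linarith)
    nlinarith
  have hs' : (4 * m + 2 : ℤ) ≤ price m M := by
    have : 4 * m + 2 ≤ price m M := by omega
    exact_mod_cast this
  have hs2 : (price m M : ℤ) = 4 * m + 2 := by
    have hA' : AA m = 4 * m + 2 := rfl
    have : (price m M : ℤ) < AA m + 1 := by
      by_contra hcon
      push Not at hcon
      nlinarith
    linarith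
  have hs3 : price m M = 4 * m + 2 := by exact_mod_cast hs2
  have hcard : (M.card : ℤ) ≤ 3 := by
    have hA' : AA m = 4 * m + 2 := rfl
    rw [hs2, ← hA'] at hW
    nlinarith
  have hcard' : M.card ≤ 3 := by exact_mod_cast hcard
  have hcases : M.card = 0 ∨ M.card = 1 ∨ M.card = 2 ∨ M.card = 3 := by omega
  rcases hcases with h0 | h0 | h0 | h0
  · rw [Multiset.card_eq_zero.1 h0, price_zero] at hs3
    omega
  · obtain ⟨i, rfl⟩ := Multiset.card_eq_one.1 h0
    have := one i (h i (by simp)) hm
    simp [price] at hs3
    omega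
  · obtain ⟨i, j, rfl⟩ := Multiset.card_eq_two.1 h0
    have := two i j (h i (by simp)) (h j (by simp)) hm
    simp [price] at hs3
    omega
  · obtain ⟨i, j, k, rfl⟩ := Multiset.card_eq_three.1 h0
    have hi := h i (by simp)
    have hj := h j (by simp)
    have hk := h k (by simp)
    have hprice : pr m i + pr m j + pr m k = 4 * m + 2 := by
      simp [price] at hs3
      omega
    have hfi : ∀ i, Adm m Φ i → -Φ ≤ fi i := by
      intro i hi
      cases i <;> simp only [Adm, fi] at * <;> omega
    have e1 := hfi i hi
    have e2 := hfi j hj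
    have e3 := hfi k hk
    have hA' : AA m = 4 * m + 2 := rfl
    rw [hs2, h0, ← hA'] at ht
    have hsum : (Multiset.map (fun i => B1 Φ * ep i + fi i) {i, j, k}).sum =
        B1 Φ * (ep i + ep j + ep k) + (fi i + fi j + fi k) := by
      simp
      ring
    rw [hsum] at ht
    have hb : B1 Φ * (ep i + ep j + ep k) + (fi i + fi j + fi k) ≤ 0 := by
      push_cast at ht
      nlinarith
    have he : ep i + ep j + ep k ≤ 0 := by
      by_contra hcon
      push Not at hcon
      have hB1 : B1 Φ = 3 * Φ + 1 := rfl
      nlinarith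
    obtain ⟨t, x, x', y, h1, h2⟩ := three i j k hi hj hk hprice he
    refine ⟨t, x, x', y, h1, h2, ?_⟩
    have hsum2 : (Multiset.map (fun i => B1 Φ * ep i + fi i) {i, j, k}).sum =
        x + x' + y := by
      rw [h2]
      simp [ep, fi]
      ring
    rw [hsum2] at hsum
    linarith

end Vale.Agent.P302.Fam
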