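import Vale.Agent.P302.H877.FamItems

/-!
# The outer family: the instance and the lower bound for the number of bins
-/

namespace Vale.Agent.P302.Fam

open Vale.Agent.P302

/-- fine part of an `x`-item of gadget `t` -/
def gx (t : ℕ) : It → Option ℤ
  | It.X t' x => if t' = t then some x else none
  | It.Y _ _ => none
  | It.S => none

/-- fine part of a `y`-item of gadget `t` -/
def gy (t : ℕ) : It → Option ℤ
  | It.X _ _ => none
  | It.Y t' y => if t' = t then some y else none
  | It.S => none

/-- the fine parts of the `x`-items of gadget `t` -/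
def xs (t : ℕ) (M : Multiset It) : Multiset ℤ := M.filterMap (gx t)

/-- the fine parts of the `y`-items of gadget `t` -/
def ys (t : ℕ) (M : Multiset It) : Multiset ℤ := M.filterMap (gy t)

theorem filterMap_add {α β : Type*} (f : α → Option β) (M N : Multiset α) :
    (M + N).filterMap f = M.filterMap f + N.filterMap f := by
  induction M using Multiset.induction with
  | empty => simp
  | cons a M ih =>
    rw [Multiset.cons_add]
    cases h : f a with
    | none => rw [Multiset.filterMap_cons_none _ _ h, Multiset.filterMap_cons_none _ _ h, ih]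
    | some b =>
      rw [Multiset.filterMap_cons_some _ _ _ h, Multiset.filterMap_cons_some _ _ _ h, ih,
        Multiset.cons_add]

theorem xs_add (t : ℕ) (M N : Multiset It) : xs t (M + N) = xs t M + xs t N := filterMap_add _ _ _

theorem ys_add (t : ℕ) (M N : Multiset It) : ys t (M + N) = ys t M + ys t N := filterMap_add _ _ _

theorem filterMap_const_none {α β γ : Type*} (f : α → Option β) (g : γ → α) (M : Multiset γ)
    (h : ∀ c, f (g c) = none) : (M.map g).filterMap f = 0 := by
  induction M using Multiset.induction with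
  | empty => simp
  | cons a M ih => rw [Multiset.map_cons, Multiset.filterMap_cons_none _ _ (h a), ih]

theorem filterMap_map_some {α γ : Type*} (f : α → Option γ) (g : γ → α) (M : Multiset γ)
    (h : ∀ c, f (g c) = some c) : (M.map g).filterMap f = M := by
  induction M using Multiset.induction with
  | empty => simp
  | cons a M ih => rw [Multiset.map_cons, Multiset.filterMap_cons_some _ _ _ (h a), ih]

theorem xs_mapX (t k : ℕ) (X : Multiset ℤ) : xs t (X.map (It.X k)) = if k = t then X else 0 := by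
  unfold xs
  split_ifs with h
  · exact filterMap_map_some _ _ _ (fun c => by simp [gx, h])
  · exact filterMap_const_none _ _ _ (fun c => by simp [gx, h])

theorem xs_mapY (t k : ℕ) (Y : Multiset ℤ) : xs t (Y.map (It.Y k)) = 0 :=
  filterMap_const_none _ _ _ (fun c => by simp [gx])

theorem ys_mapX (t k : ℕ) (X : Multiset ℤ) : ys t (X.map (It.X k)) = 0 :=
  filterMap_const_none _ _ _ (fun c => by simp [gy])

theorem ys_mapY (t k : ℕ) (Y : Multiset ℤ) : ys t (Y.map (It.Y k)) = if k = t then Y else 0 := by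
  unfold ys
  split_ifs with h
  · exact filterMap_map_some _ _ _ (fun c => by simp [gy, h])
  · exact filterMap_const_none _ _ _ (fun c => by simp [gy, h])

theorem xs_sand (t k : ℕ) : xs t (Multiset.replicate k It.S) = 0 := by
  unfold xs
  induction k with
  | zero => simp
  | succ k ih =>
    rw [Multiset.replicate_succ, Multiset.filterMap_cons_none _ _ (by rfl : gx t It.S = none), ih]

theorem ys_sand (t k : ℕ) : ys t (Multiset.replicate k It.S) = 0 := by
  unfold ys
  induction k with
  | zero => simp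
  | succ k ih =>
    rw [Multiset.replicate_succ, Multiset.filterMap_cons_none _ _ (by rfl : gy t It.S = none), ih]

/-- the items of the gadgets `0, …, k - 1` -/
def blk (X Y : Multiset ℤ) : ℕ → Multiset It
  | 0 => 0
  | k + 1 => blk X Y k + (X.map (It.X k) + Y.map (It.Y k))

theorem xs_blk (X Y : Multiset ℤ) (t : ℕ) : ∀ k, xs t (blk X Y k) = if t < k then X else 0
  | 0 => by simp [blk, xs]
  | k + 1 => by
    unfold blk
    rw [xs_add, xs_add, xs_blk X Y t k, xs_mapX, xs_mapY, add_zero]
    split_ifs with h1 h2 h3 h4 h5 <;> first | omega | simp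

theorem ys_blk (X Y : Multiset ℤ) (t : ℕ) : ∀ k, ys t (blk X Y k) = if t < k then Y else 0
  | 0 => by simp [blk, ys]
  | k + 1 => by
    unfold blk
    rw [ys_add, ys_add, ys_blk X Y t k, ys_mapX, ys_mapY, zero_add]
    split_ifs with h1 h2 h3 h4 h5 <;> first | omega | simp

theorem mem_blk {X Y : Multiset ℤ} {i : It} : ∀ {k : ℕ}, i ∈ blk X Y k →
    ∃ t < k, (∃ x ∈ X, i = It.X t x) ∨ ∃ y ∈ Y, i = It.Y t y
  | 0, h => by simp [blk] at h
  | k + 1, h => by
    unfold blk at h
    rw [Multiset.mem_add, Multiset.mem_add, Multiset.mem_map, Multiset.mem_map] at h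
    rcases h with h | ⟨x, hx, rfl⟩ | ⟨y, hy, rfl⟩
    · obtain ⟨t, ht, h⟩ := mem_blk h
      exact ⟨t, by omega, h⟩
    · exact ⟨k, by omega, Or.inl ⟨x, hx, rfl⟩⟩
    · exact ⟨k, by omega, Or.inr ⟨y, hy, rfl⟩⟩

/-- the instance -/
def items (m : ℕ) (X Y : Multiset ℤ) (n : ℕ) : Multiset It :=
  blk X Y m + Multiset.replicate n It.S

theorem mem_items {m n : ℕ} {X Y : Multiset ℤ} {i : It} (h : i ∈ items m X Y n) :
    (∃ t < m, (∃ x ∈ X, i = It.X t x) ∨ ∃ y ∈ Y, i = It.Y t y) ∨ i = It.S := by
  unfold items at h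
  rw [Multiset.mem_add] at h
  rcases h with h | h
  · exact Or.inl (mem_blk h)
  · exact Or.inr (Multiset.eq_of_mem_replicate h)

theorem adm_items {m n : ℕ} {X Y : Multiset ℤ} {Φ : ℤ} (hX : ∀ x ∈ X, -Φ ≤ x ∧ x ≤ Φ)
    (hY : ∀ y ∈ Y, -Φ ≤ y ∧ y ≤ Φ) : ∀ i ∈ items m X Y n, Adm m Φ i := by
  intro i hi
  rcases mem_items hi with ⟨t, ht, ⟨x, hx, rfl⟩ | ⟨y, hy, rfl⟩⟩ | rfl
  · exact ⟨ht, hX x hx⟩
  · exact ⟨ht, hY y hy⟩
  · trivial

theorem xs_items {m n : ℕ} {X Y : Multiset ℤ} {t : ℕ} (ht : t < m) :
    xs t (items m X Y n) = X := by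
  unfold items
  rw [xs_add, xs_blk, xs_sand, if_pos ht, add_zero]

theorem ys_items {m n : ℕ} {X Y : Multiset ℤ} {t : ℕ} (ht : t < m) :
    ys t (items m X Y n) = Y := by
  unfold items
  rw [ys_add, ys_blk, ys_sand, if_pos ht, add_zero]

theorem price_sand (m n : ℕ) : price m (Multiset.replicate n It.S) = n := by
  unfold price
  rw [Multiset.map_replicate, Multiset.sum_replicate, smul_eq_mul]
  simp [pr]

/-- the exact bins of gadget `t` found in a packing -/
def Good (M : Multiset It) (t : ℕ) (S : Multiset (ℤ × ℤ × ℤ)) : Prop :=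
  (∀ u ∈ S, u.1 + u.2.1 + u.2.2 ≤ 0) ∧
    S.map (fun u => u.1) + S.map (fun u => u.2.1) ≤ xs t M ∧ S.map (fun u => u.2.2) ≤ ys t M

theorem Good.mono {M N : Multiset It} {t : ℕ} {S : Multiset (ℤ × ℤ × ℤ)} (h : Good M t S) :
    Good (N + M) t S := by
  obtain ⟨h1, h2, h3⟩ := h
  refine ⟨h1, ?_, ?_⟩
  · rw [xs_add]; exact h2.trans (Multiset.le_add_left _ _)
  · rw [ys_add]; exact h3.trans (Multiset.le_add_left _ _)

theorem xs_bin (t : ℕ) (x x' y : ℤ) : xs t {It.X t x, It.X t x', It.Y t y} = {x} + {x'} := by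
  unfold xs
  rw [Multiset.insert_eq_cons, Multiset.insert_eq_cons,
    Multiset.filterMap_cons_some _ _ _ (by simp [gx] : gx t (It.X t x) = some x),
    Multiset.filterMap_cons_some _ _ _ (by simp [gx] : gx t (It.X t x') = some x'),
    ← Multiset.cons_zero (It.Y t y), Multiset.filterMap_cons_none _ _ (by rfl), Multiset.filterMap_zero]
  rfl

theorem ys_bin (t : ℕ) (x x' y : ℤ) : ys t {It.X t x, It.X t x', It.Y t y} = {y} := by
  unfold ys
  rw [Multiset.insert_eq_cons, Multiset.insert_eq_cons,
    Multiset.filterMap_cons_none _ _ (by rfl), Multiset.filterMap_cons_none _ _ (by rfl),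
    ← Multiset.cons_zero (It.Y t y),
    Multiset.filterMap_cons_some _ _ _ (by simp [gy] : gy t (It.Y t y) = some y),
    Multiset.filterMap_zero]
  rfl

theorem Good.cons {M : Multiset It} {t : ℕ} {S : Multiset (ℤ × ℤ × ℤ)} (h : Good M t S)
    {x x' y : ℤ} (hs : x + x' + y ≤ 0) :
    Good ({It.X t x, It.X t x', It.Y t y} + M) t ((x, x', y) ::ₘ S) := by
  obtain ⟨g1, g2, g3⟩ := h
  refine ⟨?_, ?_, ?_⟩
  · intro u hu
    rcases Multiset.mem_cons.1 hu with rfl | hu
    · exact hs
    · exact g1 u hu
  · rw [xs_add, xs_bin, Multiset.map_cons, Multiset.map_cons]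
    have : x ::ₘ Multiset.map (fun t => t.1) S + x' ::ₘ Multiset.map (fun t => t.2.1) S
        = ({x} + {x'}) + (Multiset.map (fun t => t.1) S + Multiset.map (fun t => t.2.1) S) := by
      rw [← Multiset.singleton_add, ← Multiset.singleton_add]
      abel
    simp only
    rw [this]
    exact add_le_add_right g2 _
  · rw [ys_add, ys_bin, Multiset.map_cons, ← Multiset.singleton_add]
    exact add_le_add_right g3 _

theorem price_bin {m t : ℕ} (ht : t < m) (x x' y : ℤ) :
    price m {It.X t x, It.X t x', It.Y t y} = 4 * m + 2 := by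
  simp only [price, Multiset.insert_eq_cons, Multiset.map_cons, Multiset.map_singleton,
    Multiset.sum_cons, Multiset.sum_singleton, pr]
  omega

variable {m : ℕ} {Φ : ℤ}

theorem bins (hΦ : 0 ≤ Φ) (hm : 0 < m) (P : Multiset (Multiset It))
    (h : ∀ M ∈ P, (∀ i ∈ M, Adm m Φ i) ∧ (M.map (sz m Φ)).sum ≤ B2 m Φ * (AA m ^ 2 + 3)) :
    ∃ S : ℕ → Multiset (ℤ × ℤ × ℤ), (∀ t, Good P.join t (S t)) ∧
      price m P.join ≤ (4 * m + 1) * P.card + ∑ t ∈ Finset.range m, (S t).card := by
  induction P using Multiset.induction with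
  | empty =>
    exact ⟨fun _ => 0, fun t => ⟨by simp, by simp, by simp⟩, by simp [price]⟩
  | cons M P ih =>
    obtain ⟨S, g, hle⟩ := ih (fun N hN => h N (by simp [hN]))
    obtain ⟨hM1, hM2⟩ := h M (by simp)
    rw [Multiset.join_cons, price_add, Multiset.card_cons]
    rcases cls hΦ hm M hM1 hM2 with h1 | ⟨t, x, x', y, ht, rfl, hs⟩
    · exact ⟨S, fun t => (g t).mono, by linarith⟩
    · refine ⟨Function.update S t ((x, x', y) ::ₘ S t), fun r => ?_, ?_⟩
      · by_cases hr : r = t
        · subst hr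
          rw [Function.update_self]
          exact (g r).cons hs
        · rw [Function.update_of_ne hr]
          exact (g r).mono
      · have e : ∑ r ∈ Finset.range m, (Function.update S t ((x, x', y) ::ₘ S t) r).card =
            ∑ r ∈ Finset.range m, (S r).card + 1 := by
          rw [← Finset.add_sum_erase _ _ (Finset.mem_range.2 ht),
            ← Finset.add_sum_erase _ (fun r => (S r).card) (Finset.mem_range.2 ht),
            Function.update_self, Multiset.card_cons]
          have : ∑ r ∈ (Finset.range m).erase t, (Function.update S t ((x, x', y) ::ₘ S t) r).card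
              = ∑ r ∈ (Finset.range m).erase t, (S r).card := by
            refine Finset.sum_congr rfl (fun r hr => ?_)
            rw [Function.update_of_ne (Finset.ne_of_mem_erase hr)]
          rw [this]
          ring
        rw [e, price_bin ht]
        linarith

/-- every packing of the instance has many bins -/
theorem bins_ge (hΦ : 0 ≤ Φ) (hm : 0 < m) {X Y : Multiset ℤ} {n T : ℕ}
    (hX : ∀ x ∈ X, -Φ ≤ x ∧ x ≤ Φ) (hY : ∀ y ∈ Y, -Φ ≤ y ∧ y ≤ Φ)
    (hU : ∀ S, UPack X Y S → Multiset.card S ≤ T) (P : Multiset (Multiset It))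
    (hP : P.join = items m X Y n)
    (h : ∀ M ∈ P, (M.map (sz m Φ)).sum ≤ B2 m Φ * (AA m ^ 2 + 3)) :
    price m (blk X Y m) + n ≤ (4 * m + 1) * P.card + m * T := by
  have hmem : ∀ M ∈ P, ∀ i ∈ M, i ∈ items m X Y n := by
    intro M hM i hi
    rw [← hP]
    exact Multiset.mem_join.2 ⟨M, hM, hi⟩
  obtain ⟨S, g, hle⟩ := bins hΦ hm P (fun M hM => ⟨fun i hi => adm_items hX hY i (hmem M hM i hi),
    h M hM⟩)
  rw [hP] at g hle
  have hpr : price m (items m X Y n) = price m (blk X Y m) + n := by
    unfold items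
    rw [price_add, price_sand]
  rw [hpr] at hle
  have hsum : ∑ t ∈ Finset.range m, (S t).card ≤ ∑ _t ∈ Finset.range m, T := by
    refine Finset.sum_le_sum (fun t ht => hU (S t) ?_)
    obtain ⟨g1, g2, g3⟩ := g t
    rw [xs_items (Finset.mem_range.1 ht)] at g2
    rw [ys_items (Finset.mem_range.1 ht)] at g3
    exact ⟨g1, g2, g3⟩
  rw [Finset.sum_const, Finset.card_range, smul_eq_mul] at hsum
  linarith

end Vale.Agent.P302.Fam
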