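import Vale.Agent.P302.H877.FamLower

/-!
# The outer family: the fractional solution
-/

namespace Vale.Agent.P302.Fam

open Vale.Agent.P302 Vale.Agent.P302.Tags

/-- the exact bins of gadget `t` given by triples -/
def ex (t : ℕ) (W : Multiset (ℤ × ℤ × ℤ)) : Multiset (Multiset It) :=
  W.map (fun w => {It.X t w.1} + {It.X t w.2.1} + {It.Y t w.2.2})

theorem join_ex (t : ℕ) (W : Multiset (ℤ × ℤ × ℤ)) :
    (ex t W).join = (W.map (fun w => w.1) + W.map (fun w => w.2.1)).map (It.X t) +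
      (W.map (fun w => w.2.2)).map (It.Y t) := by
  unfold ex
  rw [join_map_add, join_map_add, join_map_single, join_map_single, join_map_single]
  simp only [Multiset.map_add, Multiset.map_map, Function.comp_def]

theorem join_ex_le {X Y : Multiset ℤ} {q : ℕ} {W : Multiset (ℤ × ℤ × ℤ)} (t : ℕ)
    (h : UPack (q • X) (q • Y) W) : (ex t W).join ≤ q • (X.map (It.X t) + Y.map (It.Y t)) := by
  rw [join_ex, nsmul_add, ← Multiset.map_nsmul, ← Multiset.map_nsmul]
  exact add_le_add (Multiset.map_le_map h.2.1) (Multiset.map_le_map h.2.2)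

/-- the exact bins of the gadgets `0, …, k - 1` -/
def exs (W : Multiset (ℤ × ℤ × ℤ)) : ℕ → Multiset (Multiset It)
  | 0 => 0
  | k + 1 => exs W k + ex k W

theorem card_exs (W : Multiset (ℤ × ℤ × ℤ)) : ∀ k, (exs W k).card = k * W.card
  | 0 => by simp [exs]
  | k + 1 => by
    unfold exs
    rw [Multiset.card_add, card_exs W k]
    unfold ex
    rw [Multiset.card_map]
    ring

theorem join_exs_le {X Y : Multiset ℤ} {q : ℕ} {W : Multiset (ℤ × ℤ × ℤ)}
    (h : UPack (q • X) (q • Y) W) : ∀ k, (exs W k).join ≤ q • blk X Y k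
  | 0 => by simp [exs, blk]
  | k + 1 => by
    unfold exs blk
    rw [Multiset.join_add, nsmul_add]
    exact add_le_add (join_exs_le h k) (join_ex_le k h)

theorem mem_exs {W : Multiset (ℤ × ℤ × ℤ)} {M : Multiset It} : ∀ {k : ℕ}, M ∈ exs W k →
    ∃ t < k, ∃ w ∈ W, M = {It.X t w.1} + {It.X t w.2.1} + {It.Y t w.2.2}
  | 0, h => by simp [exs] at h
  | k + 1, h => by
    unfold exs at h
    rw [Multiset.mem_add] at h
    rcases h with h | h
    · obtain ⟨t, ht, h⟩ := mem_exs h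
      exact ⟨t, by omega, h⟩
    · obtain ⟨w, hw, rfl⟩ := Multiset.mem_map.1 h
      exact ⟨k, by omega, w, hw, rfl⟩

theorem price_ex {m t : ℕ} (ht : t < m) (W : Multiset (ℤ × ℤ × ℤ)) :
    price m (ex t W).join = (4 * m + 2) * W.card := by
  rw [join_ex, price_add]
  unfold price
  rw [Multiset.map_map, Multiset.map_map]
  have e1 : (pr m ∘ It.X t) = fun _ => 2 * t + 1 := rfl
  have e2 : (pr m ∘ It.Y t) = fun _ => 4 * (m - t) := rfl
  rw [e1, e2, Multiset.map_const', Multiset.map_const', Multiset.sum_replicate,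
    Multiset.sum_replicate, Multiset.card_add, Multiset.card_map, Multiset.card_map,
    Multiset.card_map, smul_eq_mul, smul_eq_mul]
  obtain ⟨d, hd⟩ : ∃ d, m = t + d := ⟨m - t, by omega⟩
  subst hd
  rw [Nat.add_sub_cancel_left]
  ring

theorem price_exs {m : ℕ} (W : Multiset (ℤ × ℤ × ℤ)) : ∀ k, k ≤ m →
    price m (exs W k).join = (4 * m + 2) * (k * W.card)
  | 0, _ => by simp [exs, price]
  | k + 1, h => by
    unfold exs
    rw [Multiset.join_add, price_add, price_exs W k (by omega), price_ex (by omega)]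
    ring

variable {m : ℕ} {Φ : ℤ}

theorem pr_pos (i : It) (hi : Adm m Φ i) : 1 ≤ pr m i := by
  cases i with
  | X a x => simp only [pr, Adm] at *; omega
  | Y a y => simp only [pr, Adm] at *; omega
  | S => simp only [pr] at *; omega

/-- a bin of price `4 m + 1` with few items fits -/
theorem fit (hΦ : 0 ≤ Φ) (M : Multiset It) (h : ∀ i ∈ M, Adm m Φ i)
    (hp : price m M = 4 * m + 1) (hc : M.card ≤ 4 * m + 1) :
    (M.map (sz m Φ)).sum ≤ B2 m Φ * (AA m ^ 2 + 3) := by
  obtain ⟨_, hu⟩ := low_sum hΦ M h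
  rw [tot_eq, hp]
  have hc1 := cc_pos (m := m) hΦ
  have hB2 : B2 m Φ = (AA m ^ 2 + 4) * cc m Φ + 1 := rfl
  have hA : AA m = 4 * m + 2 := rfl
  have hm0 : (0 : ℤ) ≤ m := by positivity
  have hc' : (M.card : ℤ) ≤ 4 * m + 1 := by exact_mod_cast hc
  have h1 : cc m Φ * M.card ≤ cc m Φ * (4 * m + 1) := mul_le_mul_of_nonneg_left hc' (by linarith)
  have hB0 : 0 ≤ B2 m Φ := by
    have : 0 ≤ (AA m ^ 2 + 4) * cc m Φ := mul_nonneg (by positivity) (by linarith)
    rw [hB2]
    linarith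
  have h2 : B2 m Φ * (AA m * ((4 * m + 1 : ℕ) : ℤ) + M.card) ≤
      B2 m Φ * (AA m * ((4 * m + 1 : ℕ) : ℤ) + (4 * m + 1)) :=
    mul_le_mul_of_nonneg_left (by linarith) hB0
  have h3 : cc m Φ * (4 * m + 1) ≤ B2 m Φ := by
    rw [hB2, hA]
    nlinarith
  push_cast at h2 ⊢
  rw [hA] at h2 ⊢
  nlinarith

theorem fit_ex (t : ℕ) (ht : t < m) {x x' y : ℤ} (hs : x + x' + y ≤ 0) :
    ((({It.X t x} + {It.X t x'} + {It.Y t y} : Multiset It)).map (sz m Φ)).sum ≤
      B2 m Φ * (AA m ^ 2 + 3) := by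
  have e : (({It.X t x} + {It.X t x'} + {It.Y t y} : Multiset It).map (sz m Φ)).sum =
      B2 m Φ * (AA m * (2 * (2 * t + 1) + 4 * ((m - t : ℕ) : ℤ)) + 3) + (x + x' + y) := by
    simp only [Multiset.map_add, Multiset.map_singleton, Multiset.sum_add, Multiset.sum_singleton]
    unfold sz
    simp only [pr, ep, fi]
    push_cast
    ring
  have e2 : (2 * (2 * (t : ℤ) + 1) + 4 * ((m - t : ℕ) : ℤ)) = AA m := by
    unfold AA
    push_cast [Nat.cast_sub ht.le]
    ring
  rw [e, e2]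
  nlinarith

theorem sz_pos (hΦ : 0 ≤ Φ) (hm : 0 < m) {i : It} (h : Adm m Φ i) :
    0 < sz m Φ i ∧ sz m Φ i ≤ B2 m Φ * (AA m ^ 2 + 3) := by
  obtain ⟨h1, h2⟩ := low_bound hΦ h
  have hc := cc_pos (m := m) hΦ
  have hB2 : B2 m Φ = (AA m ^ 2 + 4) * cc m Φ + 1 := rfl
  have hA : AA m = 4 * m + 2 := rfl
  have hA0 : 0 ≤ AA m := by rw [hA]; positivity
  have hp : (pr m i : ℤ) ≤ 4 * m := by exact_mod_cast one i h hm
  have hp0 : (0 : ℤ) ≤ pr m i := by positivity
  have hB0 : cc m Φ < B2 m Φ := by rw [hB2]; nlinarith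
  have hm0 : (0 : ℤ) ≤ m := by positivity
  unfold sz
  constructor
  · have : 0 ≤ B2 m Φ * (AA m * pr m i) :=
      mul_nonneg (by linarith) (mul_nonneg hA0 hp0)
    linarith
  · have h3 : B2 m Φ * (AA m * pr m i + 1) ≤ B2 m Φ * (AA m * (4 * m) + 1) := by
      refine mul_le_mul_of_nonneg_left ?_ (by linarith)
      have := mul_le_mul_of_nonneg_left hp hA0
      linarith
    have h4 : B2 m Φ * (AA m ^ 2 + 3) = B2 m Φ * (AA m * (4 * m) + 1) + B2 m Φ * (2 * AA m + 2) := by
      rw [hA]; ring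
    have h5 : B2 m Φ ≤ B2 m Φ * (2 * AA m + 2) := by nlinarith
    linarith

/-- complete an item with sand to a bin of price `4 m + 1` -/
def fill (m : ℕ) (i : It) : Multiset It := {i} + Multiset.replicate (4 * m + 1 - pr m i) It.S

/-- the sand needed -/
def need (m : ℕ) (R : Multiset It) : ℕ := (R.map (fun i => 4 * m + 1 - pr m i)).sum

theorem join_fill (m : ℕ) (R : Multiset It) :
    (R.map (fill m)).join = R + Multiset.replicate (need m R) It.S := by
  induction R using Multiset.induction with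
  | empty => simp [need]
  | cons i R ih =>
    unfold need at ih ⊢
    rw [Multiset.map_cons, Multiset.join_cons, ih, Multiset.map_cons, Multiset.sum_cons,
      Multiset.replicate_add]
    unfold fill
    rw [← Multiset.singleton_add i R]
    abel

theorem need_eq (hm : 0 < m) (R : Multiset It) (h : ∀ i ∈ R, Adm m Φ i) :
    need m R + price m R = (4 * m + 1) * R.card := by
  induction R using Multiset.induction with
  | empty => simp [need, price]
  | cons i R ih =>
    have h1 := ih (fun j hj => h j (by simp [hj]))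
    have h2 := one i (h i (by simp)) hm
    unfold need at h1 ⊢
    rw [Multiset.map_cons, Multiset.sum_cons, price_cons, Multiset.card_cons, Nat.mul_add, ← h1]
    omega

/-- natural number sizes -/
def nsz (m : ℕ) (Φ : ℤ) (i : It) : ℕ := (sz m Φ i).toNat

/-- natural number capacity -/
def cap (m : ℕ) (Φ : ℤ) : ℕ := (B2 m Φ * (AA m ^ 2 + 3)).toNat

theorem cap_cast (hΦ : 0 ≤ Φ) : (cap m Φ : ℤ) = B2 m Φ * (AA m ^ 2 + 3) := by
  have hc := cc_pos (m := m) hΦ
  refine Int.toNat_of_nonneg ?_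
  have hB2 : B2 m Φ = (AA m ^ 2 + 4) * cc m Φ + 1 := rfl
  rw [hB2]
  positivity

theorem cap_pos (hΦ : 0 ≤ Φ) : 0 < cap m Φ := by
  have hc := cc_pos (m := m) hΦ
  have h1 := cap_cast (m := m) hΦ
  have hB2 : B2 m Φ = (AA m ^ 2 + 4) * cc m Φ + 1 := rfl
  have h2 : (0 : ℤ) < B2 m Φ * (AA m ^ 2 + 3) := by
    rw [hB2]
    positivity
  rw [← h1] at h2
  exact_mod_cast h2

theorem nsz_sum (hΦ : 0 ≤ Φ) (hm : 0 < m) (M : Multiset It) (h : ∀ i ∈ M, Adm m Φ i) :
    (((M.map (nsz m Φ)).sum : ℕ) : ℤ) = (M.map (sz m Φ)).sum := by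
  induction M using Multiset.induction with
  | empty => simp
  | cons i M ih =>
    have h1 := ih (fun j hj => h j (by simp [hj]))
    have h2 := (sz_pos hΦ hm (h i (by simp))).1
    rw [Multiset.map_cons, Multiset.sum_cons, Multiset.map_cons, Multiset.sum_cons, ← h1]
    push_cast
    congr 1
    exact Int.toNat_of_nonneg h2.le

theorem nsz_iff (hΦ : 0 ≤ Φ) (hm : 0 < m) (M : Multiset It) (h : ∀ i ∈ M, Adm m Φ i) :
    (M.map (nsz m Φ)).sum ≤ cap m Φ ↔ (M.map (sz m Φ)).sum ≤ B2 m Φ * (AA m ^ 2 + 3) := by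
  rw [← nsz_sum hΦ hm M h, ← cap_cast hΦ]
  exact_mod_cast Iff.rfl

end Vale.Agent.P302.Fam
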