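import Vale.Agent.P302.H794.Tagged
import Vale.Agent.P302.H794.UProb
import Vale.Agent.P302.H794.Tags
import Vale.Agent.P302.H877.PProb

/-!
# The outer node (capacity 90): the lower bound for the number of bins

Tags `0,1`, `2,3` and `4,5` are the `y`- and `x`-items of three exact patterns, tag `6` is the tag
of the exact pattern of three equal kinds.
-/

namespace Vale.Agent.P302.Node

open Vale.Agent.P302 Vale.Agent.P302.Tags

/-- macro sizes -/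
def mac : Fin 7 → ℤ := ![42, 24, 72, 9, 52, 19, 30]

/-- the check for one macro pattern -/
def okB (a b c d e f g : ℕ) : Bool :=
  decide (90 < 42 * a + 24 * b + 72 * c + 9 * d + 52 * e + 19 * f + 30 * g) ||
  decide (7 * a + 4 * b + 13 * c + d + 9 * e + 3 * f + 5 * g ≤ 14) ||
  (a == 1 && b == 2 && c == 0 && d == 0 && e == 0 && f == 0 && g == 0) ||
  (a == 0 && b == 0 && c == 1 && d == 2 && e == 0 && f == 0 && g == 0) ||
  (a == 0 && b == 0 && c == 0 && d == 0 && e == 1 && f == 2 && g == 0) ||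
  (a == 0 && b == 0 && c == 0 && d == 0 && e == 0 && f == 0 && g == 3)

theorem okB_all : ((List.range 3).all fun a => (List.range 4).all fun b => (List.range 2).all fun c =>
    (List.range 11).all fun d => (List.range 2).all fun e => (List.range 5).all fun f =>
    (List.range 4).all fun g => okB a b c d e f g) = true := by
  decide +kernel

theorem macro_bound (a b c d e f g : ℕ)
    (h : 42 * a + 24 * b + 72 * c + 9 * d + 52 * e + 19 * f + 30 * g ≤ 90) :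
    7 * a + 4 * b + 13 * c + d + 9 * e + 3 * f + 5 * g ≤ 14 ∨
      (a = 1 ∧ b = 2 ∧ c = 0 ∧ d = 0 ∧ e = 0 ∧ f = 0 ∧ g = 0) ∨
      (a = 0 ∧ b = 0 ∧ c = 1 ∧ d = 2 ∧ e = 0 ∧ f = 0 ∧ g = 0) ∨
      (a = 0 ∧ b = 0 ∧ c = 0 ∧ d = 0 ∧ e = 1 ∧ f = 2 ∧ g = 0) ∨
      (a = 0 ∧ b = 0 ∧ c = 0 ∧ d = 0 ∧ e = 0 ∧ f = 0 ∧ g = 3) := by
  have key := okB_all
  simp only [List.all_eq_true, List.mem_range] at key
  have k2 := key a (by omega) b (by omega) c (by omega) d (by omega) e (by omega) f (by omega)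
    g (by omega)
  clear key
  unfold okB at k2
  simp only [Bool.or_eq_true, Bool.and_eq_true, decide_eq_true_eq, beq_iff_eq] at k2
  rcases k2 with (((((h1 | h1) | h1) | h1) | h1) | h1)
  · exact absurd h (Nat.not_le.2 h1)
  · exact Or.inl h1
  · right; left
    obtain ⟨⟨⟨⟨⟨⟨h1, h2⟩, h3⟩, h4⟩, h5⟩, h6⟩, h7⟩ := h1
    exact ⟨h1, h2, h3, h4, h5, h6, h7⟩
  · right; right; left
    obtain ⟨⟨⟨⟨⟨⟨h1, h2⟩, h3⟩, h4⟩, h5⟩, h6⟩, h7⟩ := h1
    exact ⟨h1, h2, h3, h4, h5, h6, h7⟩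
  · right; right; right; left
    obtain ⟨⟨⟨⟨⟨⟨h1, h2⟩, h3⟩, h4⟩, h5⟩, h6⟩, h7⟩ := h1
    exact ⟨h1, h2, h3, h4, h5, h6, h7⟩
  · right; right; right; right
    obtain ⟨⟨⟨⟨⟨⟨h1, h2⟩, h3⟩, h4⟩, h5⟩, h6⟩, h7⟩ := h1
    exact ⟨h1, h2, h3, h4, h5, h6, h7⟩

/-- total size of a bin in fine units -/
def tot (B : ℤ) (M : Multiset (Fin 7 × ℤ)) : ℤ := (M.map (fun i => mac i.1 * B + i.2)).sum

/-- macro size of a bin -/
def mtot (M : Multiset (Fin 7 × ℤ)) : ℤ := 42 * num 0 M + 24 * num 1 M + 72 * num 2 M +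
  9 * num 3 M + 52 * num 4 M + 19 * num 5 M + 30 * num 6 M

theorem tot_eq (B : ℤ) (M : Multiset (Fin 7 × ℤ)) :
    tot B M = mtot M * B + (M.map (fun i => i.2)).sum := by
  unfold tot mtot
  rw [Multiset.sum_map_add, sum_by_tag (fun a => mac a * B) M]
  congr 1
  simp only [Fin.sum_univ_seven, mac]
  simp
  ring

theorem sum_lower {Φ : ℤ} (M : Multiset (Fin 7 × ℤ)) (h : ∀ i ∈ M, -Φ ≤ i.2) :
    -(M.card : ℤ) * Φ ≤ (M.map (fun i => i.2)).sum := by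
  induction M using Multiset.induction with
  | empty => simp
  | cons i M ih =>
    have h1 := ih (fun j hj => h j (by simp [hj]))
    have h2 := h i (by simp)
    rw [Multiset.map_cons, Multiset.sum_cons, Multiset.card_cons]
    push_cast
    linarith

theorem card_eq (M : Multiset (Fin 7 × ℤ)) : (M.card : ℤ) = num 0 M + num 1 M + num 2 M +
    num 3 M + num 4 M + num 5 M + num 6 M := by
  rw [card_by_tag, Fin.sum_univ_seven]
  push_cast
  ring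

/-- a triple of fine parts of the items with tags `a, a, b` that is the whole bin -/
def IsU (a b : Fin 7) (M : Multiset (Fin 7 × ℤ)) (t : ℤ × ℤ × ℤ) : Prop :=
  fine a M = {t.1} + {t.2.1} ∧ fine b M = {t.2.2} ∧ t.1 + t.2.1 + t.2.2 ≤ 0

theorem bin_cases {B Φ : ℤ} (hΦ : 0 ≤ Φ) (hB : 12 * Φ ≤ B) (hB0 : 0 < B)
    (M : Multiset (Fin 7 × ℤ)) (h : ∀ i ∈ M, -Φ ≤ i.2) (ht : tot B M ≤ 90 * B) :
    7 * num 0 M + 4 * num 1 M + 13 * num 2 M + num 3 M + 9 * num 4 M + 3 * num 5 M +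
      5 * num 6 M ≤ 14 ∨
    (∃ t, IsU 1 0 M t ∧ num 0 M = 1 ∧ num 1 M = 2 ∧ num 2 M = 0 ∧ num 3 M = 0 ∧ num 4 M = 0 ∧
      num 5 M = 0 ∧ num 6 M = 0) ∨
    (∃ t, IsU 3 2 M t ∧ num 0 M = 0 ∧ num 1 M = 0 ∧ num 2 M = 1 ∧ num 3 M = 2 ∧ num 4 M = 0 ∧
      num 5 M = 0 ∧ num 6 M = 0) ∨
    (∃ t, IsU 5 4 M t ∧ num 0 M = 0 ∧ num 1 M = 0 ∧ num 2 M = 0 ∧ num 3 M = 0 ∧ num 4 M = 1 ∧
      num 5 M = 2 ∧ num 6 M = 0) ∨
    (∃ t : ℤ × ℤ × ℤ, (fine 6 M = {t.1} + {t.2.1} + {t.2.2} ∧ t.1 + t.2.1 + t.2.2 ≤ 0) ∧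
      num 0 M = 0 ∧ num 1 M = 0 ∧ num 2 M = 0 ∧ num 3 M = 0 ∧ num 4 M = 0 ∧ num 5 M = 0 ∧
      num 6 M = 3) := by
  have hlow := sum_lower M h
  have hcard := card_eq M
  have ht' := ht
  rw [tot_eq] at ht'
  have hm : mtot M = 42 * num 0 M + 24 * num 1 M + 72 * num 2 M +
    9 * num 3 M + 52 * num 4 M + 19 * num 5 M + 30 * num 6 M := rfl
  generalize mtot M = m at hm ht'
  have hk : 9 * (M.card : ℤ) ≤ m := by rw [hcard, hm]; omega
  have hc0 : (0 : ℤ) ≤ M.card := by positivity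
  have hmac : m ≤ 90 := by
    by_contra hcon
    have h1 : m * B ≤ 90 * B + (M.card : ℤ) * Φ := by linarith
    have h2 : 12 * ((M.card : ℤ) * Φ) ≤ (M.card : ℤ) * B := by nlinarith
    have h3 : 9 * ((M.card : ℤ) * B) ≤ m * B := by nlinarith
    have h4 : 91 * B ≤ m * B := by nlinarith
    nlinarith
  have hmac' : 42 * num 0 M + 24 * num 1 M + 72 * num 2 M + 9 * num 3 M + 52 * num 4 M +
      19 * num 5 M + 30 * num 6 M ≤ 90 := by
    have : ((42 * num 0 M + 24 * num 1 M + 72 * num 2 M + 9 * num 3 M + 52 * num 4 M +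
      19 * num 5 M + 30 * num 6 M : ℕ) : ℤ) ≤ 90 := by push_cast; rw [← hm]; exact hmac
    exact_mod_cast this
  have hs := sum_fine_by_tag M
  rw [Fin.sum_univ_seven] at hs
  have z0 : ∀ a : Fin 7, num a M = 0 → fine a M = 0 := fun a ha => Multiset.card_eq_zero.1 ha
  rcases macro_bound _ _ _ _ _ _ _ hmac' with h1 | ⟨ha, hb, hc, hd, he, hf, hg⟩ |
    ⟨ha, hb, hc, hd, he, hf, hg⟩ | ⟨ha, hb, hc, hd, he, hf, hg⟩ | ⟨ha, hb, hc, hd, he, hf, hg⟩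
  · exact Or.inl h1
  · right; left
    obtain ⟨y, hy⟩ := Multiset.card_eq_one.1 ha
    obtain ⟨x, x', hx⟩ := Multiset.card_eq_two.1 hb
    refine ⟨(x, x', y), ⟨by rw [hx]; rfl, hy, ?_⟩, ha, hb, hc, hd, he, hf, hg⟩
    rw [hy, hx, z0 _ hc, z0 _ hd, z0 _ he, z0 _ hf, z0 _ hg] at hs
    simp at hs
    rw [ha, hb, hc, hd, he, hf, hg] at hm
    norm_num at hm
    rw [hm, hs] at ht'
    simp only
    linarith
  · right; right; left
    obtain ⟨y, hy⟩ := Multiset.card_eq_one.1 hc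
    obtain ⟨x, x', hx⟩ := Multiset.card_eq_two.1 hd
    refine ⟨(x, x', y), ⟨by rw [hx]; rfl, hy, ?_⟩, ha, hb, hc, hd, he, hf, hg⟩
    rw [hy, hx, z0 _ ha, z0 _ hb, z0 _ he, z0 _ hf, z0 _ hg] at hs
    simp at hs
    rw [ha, hb, hc, hd, he, hf, hg] at hm
    norm_num at hm
    rw [hm, hs] at ht'
    simp only
    linarith
  · right; right; right; left
    obtain ⟨y, hy⟩ := Multiset.card_eq_one.1 he
    obtain ⟨x, x', hx⟩ := Multiset.card_eq_two.1 hf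
    refine ⟨(x, x', y), ⟨by rw [hx]; rfl, hy, ?_⟩, ha, hb, hc, hd, he, hf, hg⟩
    rw [hy, hx, z0 _ ha, z0 _ hb, z0 _ hc, z0 _ hd, z0 _ hg] at hs
    simp at hs
    rw [ha, hb, hc, hd, he, hf, hg] at hm
    norm_num at hm
    rw [hm, hs] at ht'
    simp only
    linarith
  · right; right; right; right
    obtain ⟨x, x', x'', hx⟩ := Multiset.card_eq_three.1 hg
    refine ⟨(x, x', x''), ⟨by rw [hx]; rfl, ?_⟩, ha, hb, hc, hd, he, hf, hg⟩
    rw [hx, z0 _ ha, z0 _ hb, z0 _ hc, z0 _ hd, z0 _ he, z0 _ hf] at hs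
    simp at hs
    rw [ha, hb, hc, hd, he, hf, hg] at hm
    norm_num at hm
    rw [hm, hs] at ht'
    simp only
    linarith

/-- a good collection of exact triples out of the tags `a` (for `x`) and `b` (for `y`) -/
def GoodU (Φ : ℤ) (a b : Fin 7) (M : Multiset (Fin 7 × ℤ)) (S : Multiset (ℤ × ℤ × ℤ)) : Prop :=
  (∀ t ∈ S, t.1 + t.2.1 + t.2.2 ≤ 0 ∧ -Φ ≤ t.1 ∧ -Φ ≤ t.2.1 ∧ -Φ ≤ t.2.2) ∧
    S.map (fun t => t.1) + S.map (fun t => t.2.1) ≤ fine a M ∧ S.map (fun t => t.2.2) ≤ fine b M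

theorem GoodU.mono {Φ : ℤ} {a b : Fin 7} {M N : Multiset (Fin 7 × ℤ)} {S : Multiset (ℤ × ℤ × ℤ)}
    (h : GoodU Φ a b M S) : GoodU Φ a b (N + M) S := by
  obtain ⟨h1, h2, h3⟩ := h
  refine ⟨h1, ?_, ?_⟩
  · rw [fine_add]; exact h2.trans (Multiset.le_add_left _ _)
  · rw [fine_add]; exact h3.trans (Multiset.le_add_left _ _)

theorem GoodU.cons {Φ : ℤ} {a b : Fin 7} {M N : Multiset (Fin 7 × ℤ)} {S : Multiset (ℤ × ℤ × ℤ)}
    (h : GoodU Φ a b M S) {t : ℤ × ℤ × ℤ} (hN : ∀ i ∈ N, -Φ ≤ i.2) (ht : IsU a b N t) :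
    GoodU Φ a b (N + M) (t ::ₘ S) := by
  obtain ⟨h1, h2, h3⟩ := ht
  obtain ⟨g1, g2, g3⟩ := h
  have m1 : (a, t.1) ∈ N := by rw [← mem_fine, h1]; simp
  have m2 : (a, t.2.1) ∈ N := by rw [← mem_fine, h1]; simp
  have m3 : (b, t.2.2) ∈ N := by rw [← mem_fine, h2]; simp
  refine ⟨?_, ?_, ?_⟩
  · intro u hu
    rcases Multiset.mem_cons.1 hu with rfl | hu
    · exact ⟨h3, hN _ m1, hN _ m2, hN _ m3⟩
    · exact g1 u hu
  · rw [fine_add, h1, Multiset.map_cons, Multiset.map_cons]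
    have : t.1 ::ₘ Multiset.map (fun t => t.1) S + t.2.1 ::ₘ Multiset.map (fun t => t.2.1) S
        = ({t.1} + {t.2.1}) + (Multiset.map (fun t => t.1) S + Multiset.map (fun t => t.2.1) S) := by
      rw [← Multiset.singleton_add, ← Multiset.singleton_add]
      abel
    rw [this]
    exact add_le_add_right g2 _
  · rw [fine_add, h2, Multiset.map_cons, ← Multiset.singleton_add]
    exact add_le_add_right g3 _

/-- a good collection of exact triples out of the tag `a` -/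
def GoodP (Φ : ℤ) (a : Fin 7) (M : Multiset (Fin 7 × ℤ)) (S : Multiset (ℤ × ℤ × ℤ)) : Prop :=
  (∀ t ∈ S, t.1 + t.2.1 + t.2.2 ≤ 0 ∧ -Φ ≤ t.1 ∧ -Φ ≤ t.2.1 ∧ -Φ ≤ t.2.2) ∧
    S.map (fun t => t.1) + S.map (fun t => t.2.1) + S.map (fun t => t.2.2) ≤ fine a M

theorem GoodP.mono {Φ : ℤ} {a : Fin 7} {M N : Multiset (Fin 7 × ℤ)} {S : Multiset (ℤ × ℤ × ℤ)}
    (h : GoodP Φ a M S) : GoodP Φ a (N + M) S := by
  obtain ⟨h1, h2⟩ := h
  refine ⟨h1, ?_⟩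
  rw [fine_add]; exact h2.trans (Multiset.le_add_left _ _)

theorem GoodP.cons {Φ : ℤ} {a : Fin 7} {M N : Multiset (Fin 7 × ℤ)} {S : Multiset (ℤ × ℤ × ℤ)}
    (h : GoodP Φ a M S) {t : ℤ × ℤ × ℤ} (hN : ∀ i ∈ N, -Φ ≤ i.2)
    (h1 : fine a N = {t.1} + {t.2.1} + {t.2.2}) (h3 : t.1 + t.2.1 + t.2.2 ≤ 0) :
    GoodP Φ a (N + M) (t ::ₘ S) := by
  obtain ⟨g1, g2⟩ := h
  have m1 : (a, t.1) ∈ N := by rw [← mem_fine, h1]; simp
  have m2 : (a, t.2.1) ∈ N := by rw [← mem_fine, h1]; simp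
  have m3 : (a, t.2.2) ∈ N := by rw [← mem_fine, h1]; simp
  refine ⟨?_, ?_⟩
  · intro u hu
    rcases Multiset.mem_cons.1 hu with rfl | hu
    · exact ⟨h3, hN _ m1, hN _ m2, hN _ m3⟩
    · exact g1 u hu
  · rw [fine_add, h1, Multiset.map_cons, Multiset.map_cons, Multiset.map_cons]
    have : t.1 ::ₘ Multiset.map (fun t => t.1) S + t.2.1 ::ₘ Multiset.map (fun t => t.2.1) S
        + t.2.2 ::ₘ Multiset.map (fun t => t.2.2) S
        = ({t.1} + {t.2.1} + {t.2.2}) + (Multiset.map (fun t => t.1) S +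
          Multiset.map (fun t => t.2.1) S + Multiset.map (fun t => t.2.2) S) := by
      rw [← Multiset.singleton_add, ← Multiset.singleton_add, ← Multiset.singleton_add]
      abel
    rw [this]
    exact add_le_add_right g2 _

/-- total price -/
def price (M : Multiset (Fin 7 × ℤ)) : ℕ := 7 * num 0 M + 4 * num 1 M + 13 * num 2 M +
  num 3 M + 9 * num 4 M + 3 * num 5 M + 5 * num 6 M

theorem price_add (M N : Multiset (Fin 7 × ℤ)) : price (M + N) = price M + price N := by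
  unfold price
  simp only [num_add]
  omega

theorem bins {B Φ : ℤ} (hΦ : 0 ≤ Φ) (hB : 12 * Φ ≤ B) (hB0 : 0 < B)
    (P : Multiset (Multiset (Fin 7 × ℤ)))
    (h : ∀ M ∈ P, (∀ i ∈ M, -Φ ≤ i.2) ∧ tot B M ≤ 90 * B) :
    ∃ S₁ S₂ S₃ S₄ : Multiset (ℤ × ℤ × ℤ), GoodU Φ 1 0 P.join S₁ ∧ GoodU Φ 3 2 P.join S₂ ∧
      GoodU Φ 5 4 P.join S₃ ∧ GoodP Φ 6 P.join S₄ ∧
      price P.join ≤ 14 * P.card + S₁.card + S₂.card + S₃.card + S₄.card := by
  induction P using Multiset.induction with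
  | empty =>
    exact ⟨0, 0, 0, 0, ⟨by simp, by simp, by simp⟩, ⟨by simp, by simp, by simp⟩,
      ⟨by simp, by simp, by simp⟩, ⟨by simp, by simp⟩, by simp [price]⟩
  | cons M P ih =>
    obtain ⟨S₁, S₂, S₃, S₄, g1, g2, g3, g4, hle⟩ := ih (fun N hN => h N (by simp [hN]))
    obtain ⟨hM1, hM2⟩ := h M (by simp)
    rw [Multiset.join_cons, price_add, Multiset.card_cons]
    have hp : price M = 7 * num 0 M + 4 * num 1 M + 13 * num 2 M +
      num 3 M + 9 * num 4 M + 3 * num 5 M + 5 * num 6 M := rfl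
    rcases bin_cases hΦ hB hB0 M hM1 hM2 with h1 | ⟨t, h1, ha, hb, hc, hd, he, hf, hg⟩ |
      ⟨t, h1, ha, hb, hc, hd, he, hf, hg⟩ | ⟨t, h1, ha, hb, hc, hd, he, hf, hg⟩ |
      ⟨t, h1, ha, hb, hc, hd, he, hf, hg⟩
    · exact ⟨S₁, S₂, S₃, S₄, g1.mono, g2.mono, g3.mono, g4.mono, by omega⟩
    · refine ⟨t ::ₘ S₁, S₂, S₃, S₄, g1.cons hM1 h1, g2.mono, g3.mono, g4.mono, ?_⟩
      rw [Multiset.card_cons]
      omega
    · refine ⟨S₁, t ::ₘ S₂, S₃, S₄, g1.mono, g2.cons hM1 h1, g3.mono, g4.mono, ?_⟩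
      rw [Multiset.card_cons]
      omega
    · refine ⟨S₁, S₂, t ::ₘ S₃, S₄, g1.mono, g2.mono, g3.cons hM1 h1, g4.mono, ?_⟩
      rw [Multiset.card_cons]
      omega
    · refine ⟨S₁, S₂, S₃, t ::ₘ S₄, g1.mono, g2.mono, g3.mono, g4.cons hM1 h1.1 h1.2, ?_⟩
      rw [Multiset.card_cons]
      omega

theorem GoodU.upack {Φ : ℕ} {a b : Fin 7} {M : Multiset (Fin 7 × ℤ)} {S : Multiset (ℤ × ℤ × ℤ)}
    {X Y : Multiset ℤ} {k m : ℕ} (h : GoodU Φ a b M S)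
    (ha : fine a M = X + Multiset.replicate k (2 * (Φ : ℤ) + 1))
    (hb : fine b M = Y + Multiset.replicate m (2 * (Φ : ℤ) + 1)) : UPack X Y S := by
  obtain ⟨h1, h2, h3⟩ := h
  refine ⟨fun t ht => (h1 t ht).1, ?_, ?_⟩
  · rw [ha] at h2
    refine le_of_le_add_replicate h2 ?_
    intro hE
    simp only [Multiset.mem_add, Multiset.mem_map] at hE
    rcases hE with ⟨t, ht, he⟩ | ⟨t, ht, he⟩
    · have := h1 t ht; omega
    · have := h1 t ht; omega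
  · rw [hb] at h3
    refine le_of_le_add_replicate h3 ?_
    intro hE
    simp only [Multiset.mem_map] at hE
    obtain ⟨t, ht, he⟩ := hE
    have := h1 t ht; omega

theorem GoodP.ppack {Φ : ℕ} {a : Fin 7} {M : Multiset (Fin 7 × ℤ)} {S : Multiset (ℤ × ℤ × ℤ)}
    {X : Multiset ℤ} {k : ℕ} (h : GoodP Φ a M S)
    (ha : fine a M = X + Multiset.replicate k (2 * (Φ : ℤ) + 1)) : PPack X S := by
  obtain ⟨h1, h2⟩ := h
  refine ⟨fun t ht => (h1 t ht).1, ?_⟩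
  rw [ha] at h2
  refine le_of_le_add_replicate h2 ?_
  intro hE
  simp only [Multiset.mem_add, Multiset.mem_map] at hE
  rcases hE with (⟨t, ht, he⟩ | ⟨t, ht, he⟩) | ⟨t, ht, he⟩
  · have := h1 t ht; omega
  · have := h1 t ht; omega
  · have := h1 t ht; omega

end Vale.Agent.P302.Node
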