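import Vale.Agent.P302.H877.Lower
import Vale.Agent.P302.H877.Assemble

/-!
# The outer node (capacity 90): the instance and its fractional solution
-/

namespace Vale.Agent.P302.Node

open Vale.Agent.P302 Vale.Agent.P302.Tags

/-- the items with tag `a`: those with fine parts in `X` and dummies with fine part `E`, `m` in all -/
def blk (a : Fin 7) (X : Multiset ℤ) (m : ℕ) (E : ℤ) : Multiset (Fin 7 × ℤ) :=
  tag a (X + Multiset.replicate (m - X.card) E)

theorem fine_blk (a b : Fin 7) (X : Multiset ℤ) (m : ℕ) (E : ℤ) :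
    fine a (blk b X m E) = if a = b then X + Multiset.replicate (m - X.card) E else 0 :=
  fine_tag _ _ _

theorem tag_le_blk (a : Fin 7) (X : Multiset ℤ) (m : ℕ) (E : ℤ) : tag a X ≤ blk a X m E := by
  unfold blk
  rw [tag_add]
  exact Multiset.le_add_right _ _

theorem mem_blk {a : Fin 7} {X : Multiset ℤ} {m : ℕ} {E : ℤ} {i : Fin 7 × ℤ}
    (h : i ∈ blk a X m E) : i.2 ∈ X ∨ i.2 = E := by
  unfold blk at h
  rw [mem_tag, Multiset.mem_add] at h
  rcases h with ⟨_, h | h⟩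
  · exact Or.inl h
  · exact Or.inr (Multiset.eq_of_mem_replicate h)

/-- the numbers of items of the seven kinds -/
structure Cnt where
  n0 : ℕ
  n1 : ℕ
  n2 : ℕ
  n3 : ℕ
  n4 : ℕ
  n5 : ℕ
  n6 : ℕ

/-- the instance -/
def items (X Y Z : Multiset ℤ) (c : Cnt) (E : ℤ) : Multiset (Fin 7 × ℤ) :=
  blk 0 Y c.n0 E + blk 1 X c.n1 E + blk 2 Y c.n2 E + blk 3 X c.n3 E + blk 4 Y c.n4 E +
    blk 5 X c.n5 E + blk 6 Z c.n6 E

theorem fine_items (X Y Z : Multiset ℤ) (c : Cnt) (E : ℤ) :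
    fine 0 (items X Y Z c E) = Y + Multiset.replicate (c.n0 - Y.card) E ∧
    fine 1 (items X Y Z c E) = X + Multiset.replicate (c.n1 - X.card) E ∧
    fine 2 (items X Y Z c E) = Y + Multiset.replicate (c.n2 - Y.card) E ∧
    fine 3 (items X Y Z c E) = X + Multiset.replicate (c.n3 - X.card) E ∧
    fine 4 (items X Y Z c E) = Y + Multiset.replicate (c.n4 - Y.card) E ∧
    fine 5 (items X Y Z c E) = X + Multiset.replicate (c.n5 - X.card) E ∧
    fine 6 (items X Y Z c E) = Z + Multiset.replicate (c.n6 - Z.card) E := by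
  unfold items
  simp only [fine_add, fine_blk]
  refine ⟨?_, ?_, ?_, ?_, ?_, ?_, ?_⟩ <;> simp

theorem num_items {X Y Z : Multiset ℤ} {c : Cnt} {E : ℤ} (h0 : Y.card ≤ c.n0) (h1 : X.card ≤ c.n1)
    (h2 : Y.card ≤ c.n2) (h3 : X.card ≤ c.n3) (h4 : Y.card ≤ c.n4) (h5 : X.card ≤ c.n5)
    (h6 : Z.card ≤ c.n6) :
    num 0 (items X Y Z c E) = c.n0 ∧ num 1 (items X Y Z c E) = c.n1 ∧
    num 2 (items X Y Z c E) = c.n2 ∧ num 3 (items X Y Z c E) = c.n3 ∧
    num 4 (items X Y Z c E) = c.n4 ∧ num 5 (items X Y Z c E) = c.n5 ∧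
    num 6 (items X Y Z c E) = c.n6 := by
  obtain ⟨e0, e1, e2, e3, e4, e5, e6⟩ := fine_items X Y Z c E
  unfold num
  rw [e0, e1, e2, e3, e4, e5, e6]
  simp only [Multiset.card_add, Multiset.card_replicate]
  omega

theorem mem_items {X Y Z : Multiset ℤ} {c : Cnt} {E : ℤ} {i : Fin 7 × ℤ}
    (h : i ∈ items X Y Z c E) : i.2 ∈ X ∨ i.2 ∈ Y ∨ i.2 ∈ Z ∨ i.2 = E := by
  unfold items at h
  simp only [Multiset.mem_add] at h
  rcases h with (((((h | h) | h) | h) | h) | h) | h <;> rcases mem_blk h with h | h <;> simp [h]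

/-- the sizes as natural numbers -/
def size (B : ℤ) (i : Fin 7 × ℤ) : ℕ := (mac i.1 * B + i.2).toNat

theorem size_sum (B : ℤ) (M : Multiset (Fin 7 × ℤ)) (h : ∀ i ∈ M, 0 ≤ mac i.1 * B + i.2) :
    (((M.map (size B)).sum : ℕ) : ℤ) = tot B M := by
  induction M using Multiset.induction with
  | empty => simp [tot]
  | cons i M ih =>
    have h1 := ih (fun j hj => h j (by simp [hj]))
    have h2 := h i (by simp)
    unfold tot at h1 ⊢
    rw [Multiset.map_cons, Multiset.sum_cons, Multiset.map_cons, Multiset.sum_cons, ← h1]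
    push_cast
    congr 1
    exact Int.toNat_of_nonneg h2

theorem mac_bounds (a : Fin 7) : 9 ≤ mac a ∧ mac a ≤ 72 := by
  fin_cases a <;> simp [mac]

/-! ### the patterns -/

/-- the exact bins of a collection of triples -/
def exU (a b : Fin 7) (W : Multiset (ℤ × ℤ × ℤ)) : Multiset (Multiset (Fin 7 × ℤ)) :=
  W.map (fun t => {(a, t.1)} + {(a, t.2.1)} + {(b, t.2.2)})

theorem join_exU (a b : Fin 7) (W : Multiset (ℤ × ℤ × ℤ)) :
    (exU a b W).join = tag a (W.map (fun t => t.1) + W.map (fun t => t.2.1)) +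
      tag b (W.map (fun t => t.2.2)) := by
  unfold exU
  rw [join_map_add, join_map_add, join_map_single, join_map_single, join_map_single]
  unfold tag
  simp only [Multiset.map_add, Multiset.map_map, Function.comp_def]

theorem join_exU_le {X Y : Multiset ℤ} {q : ℕ} {W : Multiset (ℤ × ℤ × ℤ)} (a b : Fin 7)
    (h : UPack (q • X) (q • Y) W) : (exU a b W).join ≤ q • (tag a X + tag b Y) := by
  rw [join_exU, nsmul_add, ← tag_nsmul, ← tag_nsmul]
  exact add_le_add (Multiset.map_le_map h.2.1) (Multiset.map_le_map h.2.2)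

theorem UPack.nsmul {X Y : Multiset ℤ} {W : Multiset (ℤ × ℤ × ℤ)} (h : UPack X Y W) (k : ℕ) :
    UPack (k • X) (k • Y) (k • W) := by
  obtain ⟨h1, h2, h3⟩ := h
  refine ⟨fun t ht => h1 t (Multiset.mem_of_mem_nsmul ht), ?_, ?_⟩
  · rw [Multiset.map_nsmul, Multiset.map_nsmul, ← nsmul_add]
    exact nsmul_le_nsmul_right h2 k
  · rw [Multiset.map_nsmul]
    exact nsmul_le_nsmul_right h3 k

theorem PPack.nsmul {X : Multiset ℤ} {W : Multiset (ℤ × ℤ × ℤ)} (h : PPack X W) (k : ℕ) :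
    PPack (k • X) (k • W) := by
  obtain ⟨h1, h2⟩ := h
  refine ⟨fun t ht => h1 t (Multiset.mem_of_mem_nsmul ht), ?_⟩
  rw [Multiset.map_nsmul, Multiset.map_nsmul, Multiset.map_nsmul, ← nsmul_add, ← nsmul_add]
  exact nsmul_le_nsmul_right h2 k

theorem join_exP_le {X : Multiset ℤ} {q : ℕ} {W : Multiset (ℤ × ℤ × ℤ)} (a : Fin 7)
    (h : PPack (q • X) W) : (exU a a W).join ≤ q • tag a X := by
  rw [join_exU, ← tag_nsmul, ← tag_add]
  exact Multiset.map_le_map h.2

/-- the kinds of the items of a bin -/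
def kinds (M : Multiset (Fin 7 × ℤ)) : Multiset (Fin 7) := M.map Prod.fst

theorem count_kinds (a : Fin 7) (M : Multiset (Fin 7 × ℤ)) : (M.map Prod.fst).count a = num a M := by
  unfold num fine
  rw [Multiset.card_map, Multiset.count_map]
  congr 1
  refine Multiset.filter_congr (fun i _ => ?_)
  exact ⟨fun h => h.symm, fun h => h.symm⟩

theorem kinds_sum (M : Multiset (Fin 7 × ℤ)) (g : Fin 7 → ℤ) :
    (M.map (fun i => g i.1)).sum = ((M.map Prod.fst).map g).sum := by
  rw [Multiset.map_map]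
  rfl

theorem sum_upper {E : ℤ} (M : Multiset (Fin 7 × ℤ)) (h : ∀ i ∈ M, i.2 ≤ E) :
    (M.map (fun i => i.2)).sum ≤ (M.card : ℤ) * E := by
  induction M using Multiset.induction with
  | empty => simp
  | cons i M ih =>
    have h1 := ih (fun j hj => h j (by simp [hj]))
    have h2 := h i (by simp)
    rw [Multiset.map_cons, Multiset.sum_cons, Multiset.card_cons]
    push_cast
    linarith

/-- bins of macro size at most `89` with few items fit -/
theorem tot_le_of_kinds {B E : ℤ} (hE : 0 ≤ E) (hB : 4 * E ≤ B) {M : Multiset (Fin 7 × ℤ)}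
    {w : Multiset (Fin 7)} (hw : M.map Prod.fst = w) (hw1 : (w.map mac).sum ≤ 89)
    (hw2 : w.card ≤ 4) (h : ∀ i ∈ M, i.2 ≤ E) : tot B M ≤ 90 * B := by
  have h1 := sum_upper M h
  have h2 : M.card ≤ 4 := by rw [← hw, Multiset.card_map] at hw2; exact hw2
  have h3 : tot B M = (w.map mac).sum * B + (M.map (fun i => i.2)).sum := by
    unfold tot
    rw [Multiset.sum_map_add, ← hw, ← kinds_sum, Multiset.sum_map_mul_right]
  have h4 : (M.card : ℤ) * E ≤ 4 * E := by
    have : (M.card : ℤ) ≤ 4 := by exact_mod_cast h2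
    nlinarith
  rw [h3]
  have hB0 : 0 ≤ B := by linarith
  nlinarith

/-- the numbers of wasteful patterns used -/
structure Wts where
  w1 : ℕ
  w2 : ℕ
  w3 : ℕ
  w5 : ℕ
  w6 : ℕ
  w8 : ℕ
  w11 : ℕ

/-- the wasteful patterns used -/
def pats (w : Wts) : Multiset (Multiset (Fin 7)) :=
  Multiset.replicate w.w1 {6, 5, 5, 5} + Multiset.replicate w.w2 {6, 4} +
    Multiset.replicate w.w3 {3, 6, 6, 5} + Multiset.replicate w.w5 {2, 3} +
    Multiset.replicate w.w6 {1, 6, 6} + Multiset.replicate w.w8 {1, 1, 5, 5} +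
    Multiset.replicate w.w11 {0, 1, 5}

theorem pats_ok {w : Wts} {p : Multiset (Fin 7)} (h : p ∈ pats w) :
    (p.map mac).sum ≤ 89 ∧ p.card ≤ 4 := by
  unfold pats at h
  simp only [Multiset.mem_add, Multiset.mem_replicate] at h
  rcases h with (((((⟨_, rfl⟩ | ⟨_, rfl⟩) | ⟨_, rfl⟩) | ⟨_, rfl⟩) | ⟨_, rfl⟩) | ⟨_, rfl⟩) | ⟨_, rfl⟩ <;>
    decide

theorem card_pats (w : Wts) :
    (pats w).card = w.w1 + w.w2 + w.w3 + w.w5 + w.w6 + w.w8 + w.w11 := by
  simp [pats]

theorem count_pats (w : Wts) :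
    (pats w).join.count 0 = w.w11 ∧ (pats w).join.count 1 = w.w6 + 2 * w.w8 + w.w11 ∧
    (pats w).join.count 2 = w.w5 ∧ (pats w).join.count 3 = w.w3 + w.w5 ∧
    (pats w).join.count 4 = w.w2 ∧
    (pats w).join.count 5 = 3 * w.w1 + w.w3 + 2 * w.w8 + w.w11 ∧
    (pats w).join.count 6 = w.w1 + w.w2 + 2 * w.w3 + 2 * w.w6 := by
  unfold pats
  simp only [Multiset.join_add, join_replicate, Multiset.count_add, Multiset.count_nsmul]
  have hc : ∀ (a : Fin 7) (l : List (Fin 7)), Multiset.count a (l : Multiset (Fin 7)) = l.count a :=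
    fun a l => Multiset.coe_count a l
  refine ⟨?_, ?_, ?_, ?_, ?_, ?_, ?_⟩ <;>
    simp only [Multiset.insert_eq_cons, Multiset.count_cons, Multiset.count_singleton] <;>
    norm_num <;> simp <;> ring

end Vale.Agent.P302.Node
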